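import Vale.Agent.P079.Full.Resolvent

/-!
P079: weak limits along `toZero` as convex combinations of adaptively chosen values, and the blocks
of resolvent points near every point of a set that is minimal for the weak limit map.
-/

open scoped BigOperators
open Filter Topology

namespace Vale.Agent.P079

variable {X : Type*} [NormedAddCommGroup X] [NormedSpace ℝ X]

theorem exists_net (L : List X) {η : ℝ} (hη : 0 < η) :
    ∃ N : Finset (X →L[ℝ] ℝ), ∀ y ∈ Submodule.span ℝ {v | v ∈ L},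
      ∃ Φ ∈ N, ‖Φ‖ ≤ 1 ∧ ‖y‖ * (1 - η) ≤ Φ y := by
  classical
  set V := Submodule.span ℝ {v | v ∈ L}
  haveI : FiniteDimensional ℝ V := FiniteDimensional.span_of_finite ℝ L.finite_toSet
  obtain ⟨S, -, hSf, hS⟩ := finite_cover_balls_of_compact
    (isCompact_closedBall (0 : V) 1) (show 0 < η / 2 by linarith)
  choose φ hφn hφ using fun v : V => exists_dual_vector'' ℝ (v : X)
  refine ⟨insert 0 (hSf.toFinset.image φ), fun y hy => ?_⟩
  rcases eq_or_ne y 0 with rfl | hy0
  · exact ⟨0, Finset.mem_insert_self _ _, by simp, by simp⟩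
  have hn : 0 < ‖y‖ := norm_pos_iff.mpr hy0
  set v : V := ⟨‖y‖⁻¹ • y, V.smul_mem _ hy⟩
  have hv : v ∈ Metric.closedBall (0 : V) 1 := by
    rw [mem_closedBall_zero_iff]
    show ‖‖y‖⁻¹ • y‖ ≤ 1
    rw [norm_smul_of_nonneg (inv_nonneg.mpr hn.le), inv_mul_cancel₀ hn.ne']
  obtain ⟨w, hw, hvw⟩ := Set.mem_iUnion₂.mp (hS hv)
  rw [Metric.mem_ball, dist_eq_norm] at hvw
  have hvw' : ‖‖y‖⁻¹ • y - (w : X)‖ < η / 2 := hvw
  refine ⟨φ w, Finset.mem_insert_of_mem (Finset.mem_image_of_mem φ (hSf.mem_toFinset.mpr hw)),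
    hφn w, ?_⟩
  have h1 : φ w w = ‖(w : X)‖ := by simpa using hφ w
  have h2 : |φ w (‖y‖⁻¹ • y - (w : X))| ≤ η / 2 :=
    ((φ w).le_opNorm _).trans ((mul_le_of_le_one_left (norm_nonneg _) (hφn w)).trans hvw'.le)
  rw [map_sub, map_smul, smul_eq_mul] at h2
  have h3 : 1 - η / 2 ≤ ‖(w : X)‖ := by
    have : ‖‖y‖⁻¹ • y‖ = 1 := by
      rw [norm_smul_of_nonneg (inv_nonneg.mpr hn.le), inv_mul_cancel₀ hn.ne']
    linarith [norm_sub_norm_le (‖y‖⁻¹ • y) (w : X)]
  have h4 : 1 - η ≤ ‖y‖⁻¹ * φ w y := by linarith [(abs_le.mp h2).1]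
  calc ‖y‖ * (1 - η) ≤ ‖y‖ * (‖y‖⁻¹ * φ w y) := mul_le_mul_of_nonneg_left h4 hn.le
    _ = φ w y := by rw [← mul_assoc, mul_inv_cancel₀ hn.ne', one_mul]

/-- The first `n` values of a sequence, as a list. -/
def firstVals {α : Type*} (a : ℕ → α) (n : ℕ) : List α := (List.range n).map a

theorem firstVals_congr {α : Type*} {a b : ℕ → α} {n : ℕ} (h : ∀ i < n, a i = b i) :
    firstVals a n = firstVals b n :=
  List.map_congr_left fun i hi => h i (List.mem_range.mp hi)

theorem firstVals_succ {α : Type*} (a : ℕ → α) (n : ℕ) :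
    firstVals a (n + 1) = firstVals a n ++ [a n] := by
  simp [firstVals, List.range_succ]

theorem firstVals_take {α : Type*} (a : ℕ → α) {m n : ℕ} (h : m ≤ n) :
    (firstVals a n).take m = firstVals a m := by
  simp [firstVals, ← List.map_take, List.take_range, min_eq_left h]

theorem exists_rule_sequence {α : Type*} (P : List α → α → Prop) (h : ∀ L, ∃ x, P L x) :
    ∃ a : ℕ → α, ∀ n, P (firstVals a n) (a n) := by
  choose f hf using h
  let g : ℕ → List α := fun n => Nat.rec [] (fun _ L => L ++ [f L]) n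
  refine ⟨fun n => f (g n), fun n => ?_⟩
  have : firstVals (fun n => f (g n)) n = g n := by
    induction n with
    | zero => rfl
    | succ n ih => rw [firstVals_succ, ih]
  rw [this]
  exact hf _

/-- A weak limit is near the convex hull of values at parameters chosen adaptively. -/
theorem exists_adaptive {C : Set X} (hC : HasClusters C) {f : ℝ → X} (hf : ∀ t, f t ∈ C) {x : X}
    (hlim : ∀ Φ : X →L[ℝ] ℝ, Tendsto (fun t => Φ (f t)) toZero (𝓝 (Φ x)))
    (Ok : List ℝ → Set ℝ) (hOk : ∀ L, Ok L ∈ toZero) {ε : ℝ} (hε : 0 < ε) :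
    ∃ (n : ℕ) (a : ℕ → ℝ) (w : ℕ → ℝ), (∀ i < n, a i ∈ Ok (firstVals a i)) ∧ (∀ i, 0 ≤ w i) ∧
      ∑ i ∈ Finset.range n, w i = 1 ∧ ‖∑ i ∈ Finset.range n, w i • f (a i) - x‖ ≤ ε := by
  classical
  choose Net hNet using fun L : List ℝ =>
    exists_net (x :: L.map f) (η := 1 / (L.length + 2)) (by positivity)
  set Cond : List ℝ → ℝ → Prop := fun L t => t ∈ Ok L ∧
    ∀ m ∈ Finset.range (L.length + 1), ∀ Φ ∈ Net (L.take m), |Φ (f t) - Φ x| < 1 / (L.length + 1)
  obtain ⟨a, ha⟩ := exists_rule_sequence Cond fun L => by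
    refine Eventually.exists (f := (toZero : Filter ℝ)) (p := Cond L) ?_
    refine Eventually.and (hOk L) ((eventually_all_finset _).mpr fun m _ =>
      (eventually_all_finset _).mpr fun Φ _ => ?_)
    exact (((hlim Φ).sub_const (Φ x)).abs).eventually_lt_const (by simp; positivity)
  set S : Set X := Set.range fun k => f (a k)
  obtain ⟨y, -, hy⟩ := hC ((atTop : Filter ℕ).map fun k => f (a k)) map_neBot
    (mem_map.mpr (univ_mem' fun k => hf (a k)))
  have hyS : y ∈ closure (convexHull ℝ S) :=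
    mem_of_frequently (convex_convexHull ℝ S).closure isClosed_closure
      (mem_map.mpr (univ_mem' fun k : ℕ =>
        subset_closure (subset_convexHull ℝ S (Set.mem_range_self k)))) hy
  have hyx : y = x := by
    set V : Submodule ℝ X := Submodule.span ℝ (insert x S)
    have hmem : y - x ∈ closure (V : Set X) := by
      have h1 : convexHull ℝ S ⊆ (V : Set X) :=
        convexHull_min ((Set.subset_insert x S).trans Submodule.subset_span) V.convex
      rw [← Submodule.topologicalClosure_coe]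
      exact sub_mem (closure_mono h1 hyS)
        (subset_closure (Submodule.subset_span (Set.mem_insert x S)))
    refine sub_eq_zero.mp (norm_le_zero_iff.mp (le_of_forall_pos_le_add fun η hη => ?_))
    obtain ⟨z, hz, hzd⟩ := Metric.mem_closure_iff.mp hmem (η / 4) (by linarith)
    rw [dist_eq_norm] at hzd
    have hmono : Monotone fun n : ℕ => Submodule.span ℝ {v | v ∈ x :: (firstVals a n).map f} := by
      intro m n hmn
      refine Submodule.span_mono fun v hv => ?_
      simp only [Set.mem_ofPred_eq, List.mem_cons, firstVals, List.map_map, List.mem_map,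
        List.mem_range] at hv ⊢
      rcases hv with h | ⟨i, hi, h⟩
      exacts [Or.inl h, Or.inr ⟨i, hi.trans_le hmn, h⟩]
    have hVle : V ≤ ⨆ n : ℕ, Submodule.span ℝ {v | v ∈ x :: (firstVals a n).map f} := by
      refine Submodule.span_le.mpr fun v hv => ?_
      rcases hv with rfl | ⟨k, rfl⟩
      · exact Submodule.mem_iSup_of_mem 0 (Submodule.subset_span (by simp))
      · exact Submodule.mem_iSup_of_mem (k + 1) (Submodule.subset_span
          (show f (a k) ∈ {v | v ∈ x :: (firstVals a (k + 1)).map f} by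
            simpa [firstVals] using (Or.inr ⟨k, le_rfl, rfl⟩ :
              f (a k) = x ∨ ∃ j ≤ k, f (a j) = f (a k))))
    obtain ⟨n₀, hn₀⟩ := (Submodule.mem_iSup_of_directed _ hmono.directed_le).mp (hVle hz)
    obtain ⟨n, hn2, hnn⟩ : ∃ n : ℕ, 1 / ((n : ℝ) + 2) ≤ 1 / 2 ∧ n₀ ≤ n :=
      ⟨n₀, by rw [div_le_div_iff₀ (by positivity) two_pos]; linarith [Nat.cast_nonneg (α := ℝ) n₀],
        le_rfl⟩
    obtain ⟨Φ, hΦN, hΦn, hΦ⟩ := hNet (firstVals a n) z (hmono hnn hn₀)
    have hΦy : Φ y = Φ x := by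
      refine eq_of_forall_dist_le fun e he => ?_
      obtain ⟨N, hN⟩ := exists_nat_one_div_lt (show 0 < e / 2 by linarith)
      obtain ⟨k, hk, hkn⟩ := ((frequently_map.mp (hy {Φ} (e / 2) (by linarith))).and_eventually
        (eventually_ge_atTop (max n N))).exists
      have h1 := (ha k).2 n (Finset.mem_range.mpr (by
        simp only [firstVals, List.length_map, List.length_range]
        omega)) Φ (by rwa [firstVals_take a (le_of_max_le_left hkn)])
      simp only [firstVals, List.length_map, List.length_range] at h1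
      have h2 : (1 : ℝ) / (k + 1) ≤ 1 / (N + 1) :=
        div_le_div_of_nonneg_left zero_le_one (by positivity)
          (by exact_mod_cast Nat.succ_le_succ (le_of_max_le_right hkn))
      have h3 := abs_lt.mp (hk Φ (Finset.mem_singleton_self Φ))
      have h4 := abs_lt.mp h1
      rw [Real.dist_eq, abs_le]
      constructor <;> linarith
    have h0 : Φ (y - x) = 0 := by rw [map_sub, hΦy, sub_self]
    have h1 : Φ z ≤ η / 4 := by
      have : Φ z = Φ (y - x) - Φ (y - x - z) := by simp only [map_sub]; ring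
      rw [this, h0]
      linarith [(abs_le.mp ((Φ.le_opNorm (y - x - z)).trans
        ((mul_le_of_le_one_left (norm_nonneg _) hΦn).trans hzd.le))).1]
    have h2 : ‖z‖ * (1 / 2) ≤ η / 4 := by
      refine le_trans ?_ (hΦ.trans h1)
      refine mul_le_mul_of_nonneg_left ?_ (norm_nonneg z)
      simp only [firstVals, List.length_map, List.length_range]
      linarith
    linarith [norm_sub_norm_le (y - x) z]
  obtain ⟨b, hb, hbd⟩ := Metric.mem_closure_iff.mp (hyx ▸ hyS) ε hε
  obtain ⟨ι, _, w, p, hw, hw1, hp, hpb⟩ := mem_convexHull_iff_exists_fintype.mp hb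
  choose k hk using hp
  refine ⟨Finset.univ.sup k + 1, a, fun j => ∑ i with k i = j, w i, fun i _ => (ha i).1,
    fun j => Finset.sum_nonneg fun i _ => hw i, ?_, ?_⟩
  · rw [Finset.sum_fiberwise_of_maps_to fun i _ => Finset.mem_range.mpr
      (Nat.lt_succ_of_le (Finset.le_sup (Finset.mem_univ i)))]
    exact hw1
  · have : ∑ j ∈ Finset.range (Finset.univ.sup k + 1), (∑ i with k i = j, w i) • f (a j) = b := by
      rw [← hpb]
      calc _ = ∑ j ∈ Finset.range (Finset.univ.sup k + 1), ∑ i with k i = j, w i • f (a (k i)) := by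
            refine Finset.sum_congr rfl fun j _ => ?_
            rw [Finset.sum_smul]
            exact Finset.sum_congr rfl fun i hi => by rw [(Finset.mem_filter.mp hi).2]
        _ = ∑ i, w i • f (a (k i)) := Finset.sum_fiberwise_of_maps_to
              (fun i _ => Finset.mem_range.mpr (Nat.lt_succ_of_le (Finset.le_sup (Finset.mem_univ i)))) _
        _ = _ := Finset.sum_congr rfl fun i _ => congrArg (w i • ·) (hk i)
    rw [this, ← dist_eq_norm, dist_comm]
    exact hbd.le

/-- Every point of `E` is near an adaptively chosen block of resolvent points. -/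
def Blocks {T : X → X} {K : Set X} (R : Res T K) (E : Set X) : Prop :=
  ∀ c ∈ E, ∀ (Ok : List (X × ℝ) → X → Set ℝ), (∀ L e, e ∈ E → Ok L e ∈ toZero) → ∀ ε : ℝ, 0 < ε →
    ∃ (n : ℕ) (a : ℕ → X × ℝ) (w : ℕ → ℝ),
      (∀ i < n, (a i).1 ∈ E ∧ (a i).2 ∈ Ok (firstVals a i) (a i).1) ∧ (∀ i, 0 ≤ w i) ∧
      ∑ i ∈ Finset.range n, w i = 1 ∧
      ‖∑ i ∈ Finset.range n, w i • R.toFun (a i).2 (a i).1 - c‖ ≤ ε

theorem exists_blocks [CompleteSpace X] {T : X → X} {K : Set X} (hK : Minimal T K)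
    (hC : HasClusters K) (R : Res T K) :
    ∃ E ⊆ K, E.Nonempty ∧ Blocks R E := by
  classical
  choose! P hPK hP using fun e (he : e ∈ K) =>
    exists_weakLimit hC hK.bounded (f := fun t => R.toFun t e) fun t => R.mem t e he
  obtain ⟨E, hEK, hE⟩ := exists_minimal hC.hasInter hK.nonempty hK.closed hK.bounded hK.convex
    (T := P) hPK fun u hu v hv => norm_sub_le_of_weakLimit (hP u hu) (hP v hv)
      (Eventually.of_forall fun t => R.lip t u hu v hv)
  refine ⟨E, hEK, hE.nonempty, fun c hc Ok hOk ε hε => ?_⟩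
  set G : Set X := {c | ∀ (Ok : List (X × ℝ) → X → Set ℝ), (∀ L e, e ∈ E → Ok L e ∈ toZero) →
    ∀ ε : ℝ, 0 < ε → ∃ (n : ℕ) (a : ℕ → X × ℝ) (w : ℕ → ℝ),
      (∀ i < n, (a i).1 ∈ E ∧ (a i).2 ∈ Ok (firstVals a i) (a i).1) ∧ (∀ i, 0 ≤ w i) ∧
      ∑ i ∈ Finset.range n, w i = 1 ∧
      ‖∑ i ∈ Finset.range n, w i • R.toFun (a i).2 (a i).1 - c‖ ≤ ε}
  suffices h : closure (convexHull ℝ (P '' E)) ⊆ G from
    h (hE.subset_closure_convexHull hc) Ok hOk ε hε
  refine closure_minimal (convexHull_min ?_ ?_) ?_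
  · rintro _ ⟨e, he, rfl⟩ Ok hOk ε hε
    obtain ⟨n, a, w, ha, hw, hw1, hwe⟩ := exists_adaptive hC
      (f := fun t => R.toFun t e) (fun t => R.mem t e (hEK he)) (hP e (hEK he))
      (fun L => Ok (L.map fun t => (e, t)) e) (fun L => hOk _ e he) hε
    refine ⟨n, fun i => (e, a i), w, fun i hi => ⟨he, ?_⟩, hw, hw1, hwe⟩
    have := ha i hi
    rwa [firstVals, List.map_map] at this
  · intro c₁ h₁ c₂ h₂ p q hp hq hpq Ok hOk ε hε
    obtain ⟨n₁, a₁, w₁, ha₁, hw₁, hs₁, hd₁⟩ := h₁ Ok hOk ε hε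
    obtain ⟨n₂, a₂, w₂, ha₂, hw₂, hs₂, hd₂⟩ := h₂ (fun L e => Ok (firstVals a₁ n₁ ++ L) e)
      (fun L e he => hOk _ e he) ε hε
    set a : ℕ → X × ℝ := fun i => if i < n₁ then a₁ i else a₂ (i - n₁)
    set w : ℕ → ℝ := fun i => if i < n₁ then p * w₁ i else q * w₂ (i - n₁)
    refine ⟨n₁ + n₂, a, w, fun i hi => ?_, fun i => ?_, ?_, ?_⟩
    · by_cases h : i < n₁
      · rw [firstVals_congr (b := a₁) fun j hj => if_pos (hj.trans h)]
        simpa [a, h] using ha₁ i h
      · obtain ⟨j, rfl⟩ := Nat.exists_eq_add_of_le (not_lt.mp h)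
        have e1 : firstVals a (n₁ + j) = firstVals a₁ n₁ ++ firstVals a₂ j := by
          simp only [firstVals, List.range_add, List.map_append, List.map_map]
          refine congrArg₂ _ (List.map_congr_left fun k hk => ?_)
            (List.map_congr_left fun k _ => ?_)
          · simp [a, List.mem_range.mp hk]
          · simp [a]
        rw [e1]
        simpa [a] using ha₂ j (by omega)
    · dsimp only [w]
      split_ifs
      exacts [mul_nonneg hp (hw₁ _), mul_nonneg hq (hw₂ _)]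
    · rw [Finset.sum_range_add]
      have e1 : ∑ i ∈ Finset.range n₁, w i = p := by
        rw [Finset.sum_congr rfl fun i hi => if_pos (Finset.mem_range.mp hi), ← Finset.mul_sum,
          hs₁, mul_one]
      have e2 : ∑ i ∈ Finset.range n₂, w (n₁ + i) = q := by
        simp [w, ← Finset.mul_sum, hs₂]
      rw [e1, e2, hpq]
    · rw [Finset.sum_range_add]
      have e1 : ∑ i ∈ Finset.range n₁, w i • R.toFun (a i).2 (a i).1 =
          p • ∑ i ∈ Finset.range n₁, w₁ i • R.toFun (a₁ i).2 (a₁ i).1 := by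
        rw [Finset.smul_sum]
        exact Finset.sum_congr rfl fun i hi => by simp [a, w, Finset.mem_range.mp hi, mul_smul]
      have e2 : ∑ i ∈ Finset.range n₂, w (n₁ + i) • R.toFun (a (n₁ + i)).2 (a (n₁ + i)).1 =
          q • ∑ i ∈ Finset.range n₂, w₂ i • R.toFun (a₂ i).2 (a₂ i).1 := by
        simp [a, w, Finset.smul_sum, mul_smul]
      rw [e1, e2, show p • ∑ i ∈ Finset.range n₁, w₁ i • R.toFun (a₁ i).2 (a₁ i).1 +
          q • ∑ i ∈ Finset.range n₂, w₂ i • R.toFun (a₂ i).2 (a₂ i).1 - (p • c₁ + q • c₂) =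
          p • (∑ i ∈ Finset.range n₁, w₁ i • R.toFun (a₁ i).2 (a₁ i).1 - c₁) +
          q • (∑ i ∈ Finset.range n₂, w₂ i • R.toFun (a₂ i).2 (a₂ i).1 - c₂) by module]
      refine (norm_add_le _ _).trans ?_
      rw [norm_smul_of_nonneg hp, norm_smul_of_nonneg hq]
      calc _ ≤ p * ε + q * ε :=
            add_le_add (mul_le_mul_of_nonneg_left hd₁ hp) (mul_le_mul_of_nonneg_left hd₂ hq)
        _ = ε := by rw [← add_mul, hpq, one_mul]
  · refine isClosed_of_closure_subset fun c hc Ok hOk ε hε => ?_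
    obtain ⟨c', hc', hd⟩ := Metric.mem_closure_iff.mp hc (ε / 2) (by linarith)
    obtain ⟨n, a, w, ha, hw, hw1, hwe⟩ := hc' Ok hOk (ε / 2) (by linarith)
    refine ⟨n, a, w, ha, hw, hw1, ?_⟩
    rw [dist_eq_norm, norm_sub_rev] at hd
    linarith [norm_sub_le_norm_sub_add_norm_sub
      (∑ i ∈ Finset.range n, w i • R.toFun (a i).2 (a i).1) c' c]

end Vale.Agent.P079
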