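import Vale.Agent.P079.Full.Level

/-!
P079: some member of a block is large for every selection, and so gives a node one level deeper.
-/

open scoped BigOperators
open Filter Topology

namespace Vale.Agent.P079

variable {X : Type*} [NormedAddCommGroup X] [NormedSpace ℝ X] {T : X → X} {K : Set X}
  {R : Res T K} {z₀ : X} {E : Set X} {r : ℕ}

/-- The bound passed on to a child. -/
noncomputable def childBound (K : Set X) (r : ℕ) : ℝ :=
  ((r : ℝ) + 1) * (Metric.diam K / 2) - slack K r - tol K (r + 1) - 8 * tol K r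

theorem Level.exists_member (hcv : Convex ℝ K) (hbd : Bornology.IsBounded K)
    (hD : 0 < Metric.diam K) (hz₀ : z₀ ∈ K) (hEK : E ⊆ K) {N : Node R z₀ E r} (L : Level N) :
    ∃ i < L.n, 0 < L.w i ∧ ∀ B : ℝ → X,
      (∀ᶠ t in (toZero : Filter ℝ), R.Cls z₀ (L.a i).1 (tol K (r + 1)) t (B t)) →
      ∀ᶠ t in (toZero : Filter ℝ), N.W * L.w i * childBound K r ≤
        (sumFun N.g r + L.g i)
            (N.Q t (N.path L.a L.w i t + L.w i • (R.toFun (L.a i).2 (B t) - R.G z₀ t))) -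
          (sumFun N.g r + L.g i) (N.Q t (N.path L.a L.w i t)) := by
  by_contra hno
  push Not at hno
  set Φ := sumFun N.g r
  set p := N.path L.a L.w
  have hsel : ∀ i, ∃ B : ℝ → X, i < L.n →
      (∀ᶠ t in (toZero : Filter ℝ), R.Cls z₀ (L.a i).1 (tol K (r + 1)) t (B t)) ∧
      ∀ᶠ t in (toZero : Filter ℝ), (0 < L.w i →
        (Φ + L.g i) (N.Q t (p i t + L.w i • (R.toFun (L.a i).2 (B t) - R.G z₀ t))) -
          (Φ + L.g i) (N.Q t (p i t)) < N.W * L.w i * childBound K r) := fun i => by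
    by_cases h : i < L.n ∧ 0 < L.w i
    · obtain ⟨B, hB, hB'⟩ := hno i h.1 h.2
      exact ⟨B, fun _ => ⟨hB, hB'.mono fun t ht _ => ht⟩⟩
    · exact ⟨fun t => R.mid z₀ (L.a i).1 t, fun hi =>
        ⟨Eventually.of_forall fun t =>
          Block.cls_mid hcv hbd hz₀ (hEK (L.mem i hi).1) (tol_pos hD _).le t,
          Eventually.of_forall fun t hpos => absurd ⟨hi, hpos⟩ h⟩⟩
  choose B hB using hsel
  have hall : ∀ᶠ t in (toZero : Filter ℝ), ∀ i ∈ Finset.range L.n, (0 < L.w i →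
      (Φ + L.g i) (N.Q t (p i t + L.w i • (R.toFun (L.a i).2 (B i t) - R.G z₀ t))) -
        (Φ + L.g i) (N.Q t (p i t)) < N.W * L.w i * childBound K r) ∧
      (N.W * L.w i * (Metric.diam K / 2 - tol K (r + 1)) - 3 * N.err i ≤
          L.g i (N.Q t (p i t + L.w i • (R.toFun (L.a i).2 (B i t) - R.G z₀ t))) -
            L.g i (N.Q t (p i t)) ∧
        Φ (N.Q t (p (i + 1) t)) - N.err i ≤
          Φ (N.Q t (p i t + L.w i • (R.toFun (L.a i).2 (B i t) - R.G z₀ t)))) :=
    (eventually_all_finset _).mpr fun i hi => by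
      filter_upwards [(hB i (Finset.mem_range.mp hi)).1, (hB i (Finset.mem_range.mp hi)).2,
        L.response hcv hbd hD hz₀ hEK (Finset.mem_range.mp hi)] with t h1 h2 h3
      exact ⟨h2, h3 _ h1⟩
  obtain ⟨t, hinv, ht⟩ := ((N.inv _ (L.end_cls hcv hbd hD hz₀ hEK)).and hall).exists
  set Z : ℕ → ℝ := fun i =>
    (Φ + L.g i) (N.Q t (p i t + L.w i • (R.toFun (L.a i).2 (B i t) - R.G z₀ t))) -
      (Φ + L.g i) (N.Q t (p i t))
  have hlow : ∀ i ∈ Finset.range L.n, (Φ (N.Q t (p (i + 1) t)) - Φ (N.Q t (p i t))) +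
      N.W * L.w i * (Metric.diam K / 2 - tol K (r + 1)) - 4 * N.err i ≤ Z i := fun i hi => by
    obtain ⟨h1, h2⟩ := (ht i hi).2
    simp only [Z, add_apply]
    linarith
  have hup : ∀ i ∈ Finset.range L.n, Z i ≤ N.W * L.w i * childBound K r := fun i hi => by
    rcases (L.w_nonneg i).eq_or_lt with h0 | h0
    · simp [Z, ← h0]
    · exact ((ht i hi).1 h0).le
  obtain ⟨i₀, hi₀, hi₀'⟩ : ∃ i ∈ Finset.range L.n, 0 < L.w i := by
    by_contra hc
    push Not at hc
    linarith [Finset.sum_nonpos hc, L.sum_ge]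
  have hlt := (Finset.sum_le_sum hlow).trans_lt
    (Finset.sum_lt_sum hup ⟨i₀, hi₀, (ht i₀ hi₀).1 hi₀'⟩)
  rw [Finset.sum_sub_distrib, Finset.sum_add_distrib,
    Finset.sum_range_sub fun i => Φ (N.Q t (p i t))] at hlt
  simp only [← Finset.mul_sum, mul_assoc N.W, ← Finset.sum_mul] at hlt
  have hr0 : (0 : ℝ) ≤ r * (Metric.diam K / 2) - slack K r := by
    rcases Nat.eq_zero_or_pos r with rfl | hr
    · simp [slack]
    · have h1 : (1 : ℝ) ≤ r := by exact_mod_cast hr
      nlinarith [slack_le K r]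
  set S := ∑ i ∈ Finset.range L.n, L.w i
  have key : S * childBound K r ≤ (r * (Metric.diam K / 2) - slack K r) +
      S * (Metric.diam K / 2 - tol K (r + 1)) - 4 * tol K r := by
    have h1 := mul_le_of_le_one_left hr0 L.sum_le
    have h2 := mul_le_mul_of_nonneg_right L.sum_ge (tol_pos hD r).le
    rw [childBound]
    linarith
  have e0 : p 0 t = R.G z₀ t := rfl
  rw [e0] at hlt
  linarith [mul_le_mul_of_nonneg_left key N.W_pos.le, N.sum_err_le hD L.n]

/-- One more level. -/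
theorem Node.exists_child (hcv : Convex ℝ K) (hbd : Bornology.IsBounded K)
    (hD : 0 < Metric.diam K) (hC : HasClusters K) (hz₀ : z₀ ∈ K) (hEK : E ⊆ K)
    (hblocks : Blocks R E)
    (hfar : ∀ u ∈ K, ∀ η > 0, ∀ᶠ s in (toZero : Filter ℝ), ∀ e ∈ K,
      Metric.diam K - η ≤ ‖R.toFun s e - u‖)
    (N : Node R z₀ E r) :
    ∃ N' : Node R z₀ E (r + 1), (∀ j < r, N'.g j = N.g j) ∧ N.F ⊆ N'.F ∧ N'.W ≤ N.W ∧
      ∀ v ∈ N.F, ∀ v' ∈ N.F, |N'.g r (v - v')| ≤ N.W * tol K r := by
  classical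
  obtain ⟨L⟩ := N.nonempty_level hcv hbd hD hC hz₀ hEK hblocks hfar
  obtain ⟨i, hi, hμ, hmain⟩ := L.exists_member hcv hbd hD hz₀ hEK
  set s := (L.a i).2
  set μ := L.w i
  set p := N.path L.a L.w i
  have hρ0 : 0 ≤ tol K (r + 1) := (tol_pos hD _).le
  have hext := fun (t : ℝ) (Z : X) (hZ : Z ∈ K) =>
    L.extend hcv hbd hD hz₀ hEK hi.le t hZ (L.w_nonneg i) (L.part_le hi)
  have hYK : ∀ t, ∀ B ∈ K, p t + μ • (R.toFun s B - R.G z₀ t) ∈ K := fun t B hB =>
    (hext t _ (R.mem _ _ hB)).1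
  set Q' : ℝ → X → X := fun t B => N.Q t (p t + μ • (R.toFun s B - R.G z₀ t))
  have hQ'K : ∀ t, ∀ B ∈ K, Q' t B ∈ K := fun t B hB => N.Q_mem t _ (hYK t B hB)
  have hμ1 : μ ≤ 1 := by
    linarith [L.part_le hi, Finset.sum_nonneg (s := Finset.range i) fun j _ => L.w_nonneg j]
  have hlip : ∀ t, ∀ B ∈ K, ∀ B' ∈ K, ‖Q' t B - Q' t B'‖ ≤ N.W * μ * ‖B - B'‖ := by
    intro t B hB B' hB'
    refine (N.lip t _ (hYK t B hB) _ (hYK t B' hB')).trans ?_
    rw [mul_assoc]
    refine mul_le_mul_of_nonneg_left ?_ N.W_pos.le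
    rw [show p t + μ • (R.toFun s B - R.G z₀ t) - (p t + μ • (R.toFun s B' - R.G z₀ t)) =
      μ • (R.toFun s B - R.toFun s B') by module, norm_smul_of_nonneg hμ.le]
    exact mul_le_mul_of_nonneg_left (R.lip s B hB B' hB') hμ.le
  have heK : (L.a i).1 ∈ K := hEK (L.mem i hi).1
  have hs : s ∈ Set.Ioc (0 : ℝ) 1 := (L.mem i hi).2
  have hGK : ∀ t, R.G z₀ t ∈ K := fun t => R.mem t z₀ hz₀
  obtain ⟨mp, hmpK, hmp⟩ := exists_weakLimit hC hbd (f := fun t => Q' t (R.mid z₀ (L.a i).1 t))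
    fun t => hQ'K t _ (Block.cls_mid hcv hbd hz₀ heK hρ0 t).1
  obtain ⟨mm, hmmK, hmm⟩ := exists_weakLimit hC hbd (f := fun t => Q' t (R.G z₀ t))
    fun t => hQ'K t _ (hGK t)
  set g' := Function.update N.g r (L.g i)
  have hg' : ∀ j < r, g' j = N.g j := fun j hj => Function.update_of_ne hj.ne _ _
  have hsum : sumFun g' (r + 1) = sumFun N.g r + L.g i := by
    rw [sumFun, Finset.sum_range_succ, Finset.sum_congr rfl fun j hj =>
      hg' j (Finset.mem_range.mp hj)]
    simp [g', sumFun]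
  have hfix' : ∀ ξ > 0, ∀ᶠ s' in (toZero : Filter ℝ), ∀ e ∈ K, ∀ᶠ t in (toZero : Filter ℝ),
      ∀ B ∈ K, ‖Q' t B - R.toFun s' e‖ ≤
        (1 - N.W * μ) * Metric.diam K + N.W * μ * ‖B - R.toFun s' e‖ + ξ := by
    intro ξ hξ
    filter_upwards [N.fix (ξ / 2) (by linarith), toZero_mem_Ioc,
      toZero_mul_le (Metric.diam K / s) (show 0 < ξ / 2 by linarith)] with s' h1 h2 h3
    intro e he
    filter_upwards [h1 e he] with t ht
    intro B hB
    have hx := R.mem s' e he
    set x := R.toFun s' e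
    refine (ht _ (hYK t B hB)).trans ?_
    have h4 : ‖R.toFun s B - x‖ ≤ ‖B - x‖ + ξ / 2 := by
      linarith [norm_sub_le_norm_sub_add_norm_sub (R.toFun s B) (R.toFun s x) x,
        R.lip s B hB x hx, (R.fix hs h2 he).trans h3]
    have h5 : ‖p t + μ • (R.toFun s B - R.G z₀ t) - x‖ ≤
        (1 - μ) * Metric.diam K + μ * (‖B - x‖ + ξ / 2) := by
      rw [show p t + μ • (R.toFun s B - R.G z₀ t) - x =
        (p t + μ • (x - R.G z₀ t) - x) + μ • (R.toFun s B - x) by module]
      refine (norm_add_le _ _).trans (add_le_add (hext t x hx).2 ?_)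
      rw [norm_smul_of_nonneg hμ.le]
      exact mul_le_mul_of_nonneg_left h4 hμ.le
    have h6 := mul_le_mul_of_nonneg_left h5 N.W_pos.le
    have h7 : N.W * μ * (ξ / 2) ≤ ξ / 2 :=
      mul_le_of_le_one_left (by linarith) (mul_le_one₀ N.W_le hμ.le hμ1)
    linarith
  have hinv : ∀ B : ℝ → X,
      (∀ᶠ t in (toZero : Filter ℝ), R.Cls z₀ (L.a i).1 (tol K (r + 1)) t (B t)) →
      ∀ᶠ t in (toZero : Filter ℝ),
        N.W * μ * (((r + 1 : ℕ) : ℝ) * (Metric.diam K / 2) - slack K (r + 1)) ≤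
          sumFun g' (r + 1) (Q' t (B t)) - sumFun g' (r + 1) (Q' t (R.G z₀ t)) := by
    intro B hB
    rw [hsum]
    set Ψ := sumFun N.g r + L.g i
    have hb : 0 < tol K r / (‖Ψ‖ + 1) := div_pos (tol_pos hD r) (by positivity)
    filter_upwards [hmain B hB, L.small hz₀ hi hb] with t h1 h2
    have h3 : ‖Q' t (R.G z₀ t) - N.Q t (p t)‖ ≤ N.W * μ * (tol K r / (‖Ψ‖ + 1)) := by
      refine (N.lip t _ (hYK t _ (hGK t)) _
        (L.path_mem hcv hbd hD hz₀ hEK hi.le t)).trans ?_
      rw [add_sub_cancel_left, norm_smul_of_nonneg hμ.le, mul_assoc N.W μ]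
      exact mul_le_mul_of_nonneg_left (mul_le_mul_of_nonneg_left h2 hμ.le) N.W_pos.le
    have h4 : Ψ (Q' t (R.G z₀ t)) - Ψ (N.Q t (p t)) ≤ N.W * μ * tol K r := by
      rw [← map_sub]
      refine ((le_abs_self _).trans (Ψ.le_opNorm _)).trans
        ((mul_le_mul_of_nonneg_left h3 (norm_nonneg _)).trans ?_)
      rw [mul_left_comm]
      refine mul_le_mul_of_nonneg_left ?_ (mul_nonneg N.W_pos.le hμ.le)
      rw [mul_div_assoc', div_le_iff₀ (by positivity)]
      linarith [tol_pos hD r]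
    have hstep : ((r + 1 : ℕ) : ℝ) * (Metric.diam K / 2) - slack K (r + 1) ≤
        childBound K r - tol K r := by
      rw [childBound, slack_succ, tol_succ]
      push_cast
      linarith [tol_pos hD r]
    have h5 := mul_le_mul_of_nonneg_left hstep (mul_nonneg N.W_pos.le hμ.le)
    linarith
  refine ⟨{ c := (L.a i).1
            Q := Q'
            W := N.W * μ
            g := g'
            F := insert mp (insert mm N.F)
            mp := mp
            mm := mm
            c_mem := (L.mem i hi).1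
            Q_mem := hQ'K
            W_pos := mul_pos N.W_pos hμ
            W_le := mul_le_one₀ N.W_le hμ.le hμ1
            lip := hlip
            fix := hfix'
            g_norm := ?_
            inv := hinv
            mp_lim := hmp
            mm_lim := hmm
            F_sub := ?_
            mp_mem := Finset.mem_insert_self _ _
            mm_mem := Finset.mem_insert_of_mem (Finset.mem_insert_self _ _) },
    hg', fun v hv => Finset.mem_insert_of_mem (Finset.mem_insert_of_mem hv),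
    mul_le_of_le_one_right N.W_pos.le hμ1, ?_⟩
  · intro j
    rcases eq_or_ne j r with rfl | hj
    · simpa [g'] using L.g_norm i
    · simpa [g', hj] using N.g_norm j
  · intro v hv
    rcases Finset.mem_insert.mp hv with rfl | hv
    · exact hmpK
    rcases Finset.mem_insert.mp hv with rfl | hv
    exacts [hmmK, N.F_sub v hv]
  · intro v hv v' hv'
    show |g' r (v - v')| ≤ _
    simp only [g', Function.update_self]
    exact (L.g_const i hi v hv v' hv').trans
      (mul_le_of_le_one_right (mul_nonneg N.W_pos.le (tol_pos hD r).le)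
        (pow_le_one₀ (by norm_num) (by norm_num)))

end Vale.Agent.P079
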