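import Vale.Agent.P079.Full.Node

/-!
P079: the block of resolvent points below a node, and what each of its members contributes.
-/

open scoped BigOperators
open Filter Topology

namespace Vale.Agent.P079

variable {X : Type*} [NormedAddCommGroup X] [NormedSpace ℝ X] {T : X → X} {K : Set X}
  {R : Res T K} {z₀ : X} {E : Set X} {r : ℕ}

/-- The error allowed at the `i`-th member of the block below a node. -/
noncomputable def Node.err (N : Node R z₀ E r) (i : ℕ) : ℝ :=
  N.W * tol K r * (1 / 2) ^ (i + 1)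

/-- The points along a block below a node. -/
noncomputable def Node.path (N : Node R z₀ E r) (a : ℕ → X × ℝ) (w : ℕ → ℝ) : ℕ → ℝ → X :=
  Block.pre R z₀ N.Q (sumFun N.g r) N.err (tol K (r + 1)) a w

theorem tol_succ (K : Set X) (r : ℕ) : tol K (r + 1) = tol K r / 2 := by
  rw [tol, tol, pow_succ]; ring

theorem tol_pos {K : Set X} (hD : 0 < Metric.diam K) (r : ℕ) : 0 < tol K r := by
  rw [tol]; positivity

theorem tol_le (K : Set X) (r : ℕ) : tol K r ≤ Metric.diam K / 128 :=
  mul_le_of_le_one_right (div_nonneg Metric.diam_nonneg (by norm_num))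
    (pow_le_one₀ (by norm_num) (by norm_num))

theorem slack_le (K : Set X) (r : ℕ) : slack K r ≤ 24 * Metric.diam K / 128 :=
  mul_le_of_le_one_right (div_nonneg (mul_nonneg (by norm_num) Metric.diam_nonneg) (by norm_num))
    (by linarith [pow_nonneg (show (0 : ℝ) ≤ 1 / 2 by norm_num) r])

theorem slack_succ (K : Set X) (r : ℕ) : slack K (r + 1) = slack K r + 12 * tol K r := by
  rw [slack, slack, tol, pow_succ]; ring

theorem Node.err_pos (N : Node R z₀ E r) (hD : 0 < Metric.diam K) (i : ℕ) : 0 < N.err i := by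
  have := N.W_pos
  have := tol_pos hD r
  rw [Node.err]; positivity

theorem Node.sum_err_le (N : Node R z₀ E r) (hD : 0 < Metric.diam K) (n : ℕ) :
    ∑ i ∈ Finset.range n, N.err i ≤ N.W * tol K r := by
  simp only [Node.err, ← Finset.mul_sum]
  exact mul_le_of_le_one_right (mul_nonneg N.W_pos.le (tol_pos hD r).le) (sum_half_pow_le n)

/-- A block of resolvent points below a node, with a functional for each member. -/
structure Level (N : Node R z₀ E r) where
  n : ℕ
  a : ℕ → X × ℝ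
  w : ℕ → ℝ
  g : ℕ → X →L[ℝ] ℝ
  mem : ∀ i < n, (a i).1 ∈ E ∧ (a i).2 ∈ Set.Ioc (0 : ℝ) 1
  fix : ∀ i < n, ∀ᶠ t in (toZero : Filter ℝ), ∀ B ∈ K,
    ‖N.Q t B - R.toFun (a i).2 (a i).1‖ ≤
      (1 - N.W) * Metric.diam K + N.W * ‖B - R.toFun (a i).2 (a i).1‖ + N.err i
  w_nonneg : ∀ i, 0 ≤ w i
  sum_le : ∑ i ∈ Finset.range n, w i ≤ 1
  sum_ge : 1 / 2 ≤ ∑ i ∈ Finset.range n, w i
  gap : (1 - ∑ i ∈ Finset.range n, w i) * Metric.diam K ≤ tol K r / 8
  near : ‖∑ i ∈ Finset.range n, w i • (R.toFun (a i).2 (a i).1 - N.c)‖ ≤ tol K r / 4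
  g_norm : ∀ i, ‖g i‖ ≤ 1
  g_far : ∀ i < n, ∀ᶠ t in (toZero : Filter ℝ), Metric.diam K - 2 * N.err i ≤
    g i (R.toFun (a i).2 (a i).1) - g i (N.Q t (N.path a w i t))
  g_const : ∀ i < n, ∀ v ∈ N.F, ∀ v' ∈ N.F, |g i (v - v')| ≤ N.err i

theorem norm_sub_le_diam' (hbd : Bornology.IsBounded K) {p q : X} (hp : p ∈ K) (hq : q ∈ K) :
    ‖p - q‖ ≤ Metric.diam K := by
  rw [← dist_eq_norm]; exact Metric.dist_le_diam_of_mem hbd hp hq

open Block in
theorem Node.nonempty_level (hcv : Convex ℝ K) (hbd : Bornology.IsBounded K)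
    (hD : 0 < Metric.diam K) (hC : HasClusters K) (hz₀ : z₀ ∈ K) (hEK : E ⊆ K)
    (hblocks : Blocks R E)
    (hfar : ∀ u ∈ K, ∀ η > 0, ∀ᶠ s in (toZero : Filter ℝ), ∀ e ∈ K,
      Metric.diam K - η ≤ ‖R.toFun s e - u‖)
    (N : Node R z₀ E r) : Nonempty (Level N) := by
  classical
  have hρ₀ := tol_pos hD r
  have hρ0 : 0 ≤ tol K (r + 1) := (tol_pos hD _).le
  set hh := tol K r / (8 * Metric.diam K)
  set h : ℕ → ℝ := fun i => hh * (1 / 2) ^ (i + 1)
  have hhD : hh * Metric.diam K = tol K r / 8 := by simp only [hh]; field_simp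
  have hpos : ∀ i, 0 < h i := fun i => by positivity
  have hlimex : ∀ f : ℝ → X, ∃ m ∈ K, (∀ t, f t ∈ K) →
      ∀ Ψ : X →L[ℝ] ℝ, Tendsto (fun t => Ψ (f t)) toZero (𝓝 (Ψ m)) := fun f => by
    by_cases hf : ∀ t, f t ∈ K
    · obtain ⟨m, hm, h⟩ := exists_weakLimit hC hbd hf
      exact ⟨m, hm, fun _ => h⟩
    · exact ⟨z₀, hz₀, fun h => absurd h hf⟩
  choose lim hlimK hlim using hlimex
  set Known : List (X × ℝ) → Finset X := fun L => N.F ∪ (weights h L.length).image fun w =>
    lim fun t => N.Q t (N.path (fun i => L.getD i (z₀, 0)) w L.length t)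
  have hKnown : ∀ L, ∀ v ∈ Known L, v ∈ K := fun L v hv => by
    rcases Finset.mem_union.mp hv with hv | hv
    · exact N.F_sub v hv
    · obtain ⟨w, -, rfl⟩ := Finset.mem_image.mp hv; exact hlimK _
  have hne : ∀ L, (Known L).Nonempty := fun L => ⟨N.mp, Finset.mem_union_left _ N.mp_mem⟩
  choose avg havgK havg using fun L => exists_functional hcv hbd (hne L) (hKnown L)
  set Ok : List (X × ℝ) → X → Set ℝ := fun L e => {s | s ∈ Set.Ioc (0 : ℝ) 1 ∧
    (∀ e ∈ K, ∀ᶠ t in (toZero : Filter ℝ), ∀ B ∈ K, ‖N.Q t B - R.toFun s e‖ ≤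
      (1 - N.W) * Metric.diam K + N.W * ‖B - R.toFun s e‖ + N.err L.length) ∧
    Metric.diam K - N.err L.length / (Known L).card ≤ ‖R.toFun s e - avg L‖}
  have hOk : ∀ L e, e ∈ E → Ok L e ∈ toZero := fun L e he => by
    filter_upwards [toZero_mem_Ioc, N.fix _ (N.err_pos hD L.length), hfar (avg L) (havgK L)
      (N.err L.length / (Known L).card)
      (div_pos (N.err_pos hD _) (by exact_mod_cast (hne L).card_pos))] with s h1 h2 h3
    exact ⟨h1, h2, h3 e (hEK he)⟩
  obtain ⟨n, a, w₁, ha, hw₁, hsum₁, hnear⟩ :=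
    hblocks N.c N.c_mem Ok hOk (tol K r / 8) (by positivity)
  set k : ℕ → ℕ := fun i => ⌊w₁ i / h i⌋₊
  set w : ℕ → ℝ := fun i => k i * h i
  have hw0 : ∀ i, 0 ≤ w i := fun i => mul_nonneg (Nat.cast_nonneg _) (hpos i).le
  have hwle : ∀ i, w i ≤ w₁ i := fun i =>
    (le_div_iff₀ (hpos i)).mp (Nat.floor_le (div_nonneg (hw₁ i) (hpos i).le))
  have hwge : ∀ i, w₁ i - w i ≤ h i := fun i => by
    have := Nat.lt_floor_add_one (w₁ i / h i)
    rw [div_lt_iff₀ (hpos i), add_mul, one_mul] at this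
    linarith
  have hgap : ∑ i ∈ Finset.range n, (w₁ i - w i) ≤ hh :=
    (Finset.sum_le_sum fun i _ => hwge i).trans (by
      simp only [h, ← Finset.mul_sum]
      exact mul_le_of_le_one_right (by positivity) (sum_half_pow_le n))
  have hS1 : ∑ i ∈ Finset.range n, w i ≤ 1 := hsum₁ ▸ Finset.sum_le_sum fun i _ => hwle i
  have hSge : 1 - hh ≤ ∑ i ∈ Finset.range n, w i := by
    rw [Finset.sum_sub_distrib, hsum₁] at hgap
    linarith
  have haK : ∀ i < n, (a i).1 ∈ K := fun i hi => hEK (ha i hi).1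
  have hQK : ∀ i < n, ∀ t, N.Q t (N.path a w i t) ∈ K := fun i hi t => by
    have := (pre_extend (R := R) (Q := N.Q) (Φ := sumFun N.g r) (err := N.err) hcv hbd hz₀ hρ0
      (a := a) (w := w) i (fun j hj => haK j (hj.trans hi)) (fun j _ => hw0 j) t _
      (R.mem t z₀ hz₀) 0 le_rfl (by
        rw [add_zero]
        exact (Finset.sum_le_sum_of_subset_of_nonneg (Finset.range_subset_range.mpr hi.le)
          fun j _ _ => hw0 j).trans hS1)).1
    exact N.Q_mem t _ (by simpa [Node.path, Res.G] using this)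
  set m : ℕ → X := fun i => lim fun t => N.Q t (N.path a w i t)
  have hmK : ∀ i < n, m i ∈ Known (firstVals a i) := fun i hi => by
    refine Finset.mem_union_right _ (Finset.mem_image.mpr
      ⟨fun j => if j < i then w j else 0, ?_, ?_⟩)
    · simp only [firstVals, List.length_map, List.length_range]
      refine mem_weights (k := k) i fun j hj => ⟨Nat.floor_le_floor
        (div_le_div_of_nonneg_right ?_ (hpos j).le), rfl⟩
      exact (Finset.single_le_sum (fun l _ => hw₁ l)
        (Finset.mem_range.mpr (hj.trans hi))).trans_eq hsum₁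
    · refine congrArg lim (funext fun t => congrArg (N.Q t) (congrFun ?_ t))
      simp only [firstVals, List.length_map, List.length_range, Node.path]
      exact pre_congr R z₀ N.Q _ _ _ (fun j hj => by simp [List.getD, hj])
        (fun j hj => if_pos hj)
  have hg : ∀ i, ∃ g : X →L[ℝ] ℝ, ‖g‖ ≤ 1 ∧
      (i < n → ∀ v ∈ Known (firstVals a i),
        Metric.diam K - N.err i ≤ g (R.toFun (a i).2 (a i).1 - v)) := fun i => by
    by_cases hi : i < n
    · obtain ⟨g, hg1, hg2⟩ := havg (firstVals a i) _ (R.mem _ _ (haK i hi)) _ (ha i hi).2.2.2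
      refine ⟨g, hg1, fun _ v hv => le_of_eq_of_le ?_ (hg2 v hv)⟩
      rw [mul_div_cancel₀ _ (by exact_mod_cast (hne _).card_pos.ne' :
        ((Known (firstVals a i)).card : ℝ) ≠ 0)]
      simp [firstVals]
    · exact ⟨0, by simp, fun h => absurd h hi⟩
  choose g hgn hgK using hg
  refine ⟨{ n := n
            a := a
            w := w
            g := g
            mem := fun i hi => ⟨(ha i hi).1, (ha i hi).2.1⟩
            fix := fun i hi => ?_
            w_nonneg := hw0
            sum_le := hS1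
            sum_ge := ?_
            gap := ?_
            near := ?_
            g_norm := hgn
            g_far := fun i hi => ?_
            g_const := fun i hi v hv v' hv' => ?_ }⟩
  · have := (ha i hi).2.2.1 _ (haK i hi)
    simpa [firstVals] using this
  · have : hh ≤ 1 / 2 := by
      rw [div_le_iff₀ (by positivity)]; linarith [tol_le K r]
    linarith
  · rw [← hhD]
    exact mul_le_mul_of_nonneg_right (by linarith) hD.le
  · have h1 : ‖∑ i ∈ Finset.range n, (w₁ i - w i) • (R.toFun (a i).2 (a i).1 - N.c)‖ ≤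
        hh * Metric.diam K := by
      refine (norm_sum_le _ _).trans ((Finset.sum_le_sum fun i hi => ?_).trans
        (show ∑ i ∈ Finset.range n, (w₁ i - w i) * Metric.diam K ≤ hh * Metric.diam K by
          rw [← Finset.sum_mul]; exact mul_le_mul_of_nonneg_right hgap hD.le))
      rw [norm_smul_of_nonneg (sub_nonneg.mpr (hwle i))]
      exact mul_le_mul_of_nonneg_left (norm_sub_le_diam' hbd
        (R.mem _ _ (haK i (Finset.mem_range.mp hi))) (hEK N.c_mem)) (sub_nonneg.mpr (hwle i))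
    have e : ∑ i ∈ Finset.range n, w i • (R.toFun (a i).2 (a i).1 - N.c) =
        (∑ i ∈ Finset.range n, w₁ i • R.toFun (a i).2 (a i).1 - N.c) -
          ∑ i ∈ Finset.range n, (w₁ i - w i) • (R.toFun (a i).2 (a i).1 - N.c) := by
      simp only [smul_sub, sub_smul, Finset.sum_sub_distrib, ← Finset.sum_smul, hsum₁, one_smul]
      abel
    rw [e]
    linarith [norm_sub_le (∑ i ∈ Finset.range n, w₁ i • R.toFun (a i).2 (a i).1 - N.c)
      (∑ i ∈ Finset.range n, (w₁ i - w i) • (R.toFun (a i).2 (a i).1 - N.c))]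
  · filter_upwards [(hlim _ (hQK i hi) (g i)).eventually_lt_const
      (show g i (m i) < g i (m i) + N.err i by linarith [N.err_pos hD i])] with t ht
    have := hgK i hi _ (hmK i hi)
    rw [map_sub] at this
    linarith
  · have h1 := hgK i hi v (Finset.mem_union_left _ hv)
    have h2 := hgK i hi v' (Finset.mem_union_left _ hv')
    have h3 : ∀ u ∈ N.F, g i (R.toFun (a i).2 (a i).1 - u) ≤ Metric.diam K := fun u hu =>
      (le_abs_self _).trans ((apply_le_norm (hgn i) _).trans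
        (norm_sub_le_diam' hbd (R.mem _ _ (haK i hi)) (N.F_sub u hu)))
    have h4 := h3 v hv
    have h5 := h3 v' hv'
    rw [map_sub] at h1 h2 h4 h5 ⊢
    rw [abs_le]
    constructor <;> linarith

namespace Level

variable {N : Node R z₀ E r} (L : Level N)

theorem part_le {i : ℕ} (hi : i < L.n) : ∑ j ∈ Finset.range i, L.w j + L.w i ≤ 1 := by
  rw [← Finset.sum_range_succ]
  exact (Finset.sum_le_sum_of_subset_of_nonneg (Finset.range_subset_range.mpr hi)
    fun j _ _ => L.w_nonneg j).trans L.sum_le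

theorem extend (hcv : Convex ℝ K) (hbd : Bornology.IsBounded K) (hD : 0 < Metric.diam K)
    (hz₀ : z₀ ∈ K) (hEK : E ⊆ K) {i : ℕ} (hi : i ≤ L.n) (t : ℝ) {Z : X} (hZ : Z ∈ K) {τ : ℝ}
    (hτ : 0 ≤ τ) (hτ1 : ∑ j ∈ Finset.range i, L.w j + τ ≤ 1) :
    N.path L.a L.w i t + τ • (Z - R.G z₀ t) ∈ K ∧
      ‖N.path L.a L.w i t + τ • (Z - R.G z₀ t) - Z‖ ≤ (1 - τ) * Metric.diam K :=
  Block.pre_extend hcv hbd hz₀ (tol_pos hD _).le i
    (fun j hj => hEK (L.mem j (hj.trans_le hi)).1) (fun j _ => L.w_nonneg j) t Z hZ τ hτ hτ1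

theorem path_mem (hcv : Convex ℝ K) (hbd : Bornology.IsBounded K) (hD : 0 < Metric.diam K)
    (hz₀ : z₀ ∈ K) (hEK : E ⊆ K) {i : ℕ} (hi : i ≤ L.n) (t : ℝ) :
    N.path L.a L.w i t ∈ K := by
  simpa using (L.extend hcv hbd hD hz₀ hEK hi t (R.mem t z₀ hz₀) le_rfl (by
    rw [add_zero]
    exact (Finset.sum_le_sum_of_subset_of_nonneg (Finset.range_subset_range.mpr hi)
      fun j _ _ => L.w_nonneg j).trans L.sum_le)).1

theorem small (hz₀ : z₀ ∈ K) {i : ℕ} (hi : i < L.n) {b : ℝ} (hb : 0 < b) :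
    ∀ᶠ t in (toZero : Filter ℝ), ‖R.toFun (L.a i).2 (R.G z₀ t) - R.G z₀ t‖ ≤ b := by
  filter_upwards [toZero_mem_Ioc, toZero_mul_le (Metric.diam K / (L.a i).2) hb] with t ht h1
  exact (R.fix (L.mem i hi).2 ht hz₀).trans h1

/-- The functional of a member is large on its increment, and the member chosen along the block
nearly minimises the older functionals. -/
theorem response (hcv : Convex ℝ K) (hbd : Bornology.IsBounded K) (hD : 0 < Metric.diam K)
    (hz₀ : z₀ ∈ K) (hEK : E ⊆ K) {i : ℕ} (hi : i < L.n) :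
    ∀ᶠ t in (toZero : Filter ℝ), ∀ B, R.Cls z₀ (L.a i).1 (tol K (r + 1)) t B →
      N.W * L.w i * (Metric.diam K / 2 - tol K (r + 1)) - 3 * N.err i ≤
          L.g i (N.Q t (N.path L.a L.w i t + L.w i • (R.toFun (L.a i).2 B - R.G z₀ t))) -
            L.g i (N.Q t (N.path L.a L.w i t)) ∧
        sumFun N.g r (N.Q t (N.path L.a L.w (i + 1) t)) - N.err i ≤
          sumFun N.g r
            (N.Q t (N.path L.a L.w i t + L.w i • (R.toFun (L.a i).2 B - R.G z₀ t))) := by
  have heK : (L.a i).1 ∈ K := hEK (L.mem i hi).1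
  have hext := fun (t : ℝ) (Z : X) (hZ : Z ∈ K) =>
    L.extend hcv hbd hD hz₀ hEK hi.le t hZ (L.w_nonneg i) (L.part_le hi)
  filter_upwards [L.fix i hi, L.g_far i hi] with t h1 h2
  intro B hB
  set x := R.toFun (L.a i).2 (L.a i).1
  set P := N.path L.a L.w i t
  set Y := P + L.w i • (R.toFun (L.a i).2 B - R.G z₀ t)
  refine ⟨?_, ?_⟩
  · have hY : ‖Y - x‖ ≤ (1 - L.w i) * Metric.diam K +
        L.w i * (Metric.diam K / 2 + tol K (r + 1)) := by
      rw [show Y - x = (P + L.w i • (x - R.G z₀ t) - x) +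
        L.w i • (R.toFun (L.a i).2 B - x) by simp only [Y]; module]
      refine (norm_add_le _ _).trans (add_le_add (hext t x (R.mem _ _ heK)).2 ?_)
      rw [norm_smul_of_nonneg (L.w_nonneg i)]
      exact mul_le_mul_of_nonneg_left ((R.lip _ _ hB.1 _ heK).trans hB.2.1) (L.w_nonneg i)
    have h3 := h1 Y (hext t _ (R.mem _ _ hB.1)).1
    have h4 := (abs_le.mp ((apply_le_norm (L.g_norm i) (N.Q t Y - x)).trans h3)).1
    have h5 := mul_le_mul_of_nonneg_left hY N.W_pos.le
    rw [map_sub] at h4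
    linarith
  · have := Block.pick_min (R := R) (err := N.err) (Φ := sumFun N.g r) hcv hbd hz₀
      (tol_pos hD (r + 1)).le N.Q_mem (N.err_pos hD i) (p := P) (μ := L.w i) (t := t)
      (fun Z hZ => (hext t Z hZ).1) heK hB
    simp only [Y, P, Node.path, Block.pre] at this ⊢
    linarith

/-- The end of the block is admissible at the node. -/
theorem end_cls (hcv : Convex ℝ K) (hbd : Bornology.IsBounded K) (hD : 0 < Metric.diam K)
    (hz₀ : z₀ ∈ K) (hEK : E ⊆ K) :
    ∀ᶠ t in (toZero : Filter ℝ), R.Cls z₀ N.c (tol K r) t (N.path L.a L.w L.n t) := by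
  have hρ₀ := tol_pos hD r
  have hall : ∀ᶠ t in (toZero : Filter ℝ), ∀ i ∈ Finset.range L.n,
      ‖R.toFun (L.a i).2 (R.G z₀ t) - R.G z₀ t‖ ≤ tol K r / 8 :=
    (eventually_all_finset _).mpr fun i hi =>
      L.small hz₀ (Finset.mem_range.mp hi) (by positivity)
  filter_upwards [hall] with t ht
  set S := ∑ i ∈ Finset.range L.n, L.w i
  set Bp : ℕ → X := fun i => Block.pick R z₀ N.Q (sumFun N.g r) N.err (tol K (r + 1)) i
    (N.path L.a L.w i t) (L.w i) (L.a i) t
  have hBp : ∀ i < L.n, R.Cls z₀ (L.a i).1 (tol K (r + 1)) t (Bp i) := fun i hi =>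
    Block.pick_cls hcv hbd hz₀ (tol_pos hD _).le i _ _ (hEK (L.mem i hi).1) t
  have hGK : R.G z₀ t ∈ K := R.mem t z₀ hz₀
  have hc := hEK N.c_mem
  have hp : N.path L.a L.w L.n t = R.G z₀ t + ∑ i ∈ Finset.range L.n, L.w i •
      (R.toFun (L.a i).2 (Bp i) - R.G z₀ t) := Block.pre_eq_sum L.a L.w L.n t
  have hρ := tol_succ K r
  refine ⟨L.path_mem hcv hbd hD hz₀ hEK le_rfl t, ?_, ?_⟩
  · have h1 : ‖∑ i ∈ Finset.range L.n, L.w i •
        (R.toFun (L.a i).2 (Bp i) - R.toFun (L.a i).2 (L.a i).1)‖ ≤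
        Metric.diam K / 2 + tol K (r + 1) := by
      refine (norm_sum_le _ _).trans ((Finset.sum_le_sum fun i hi => ?_).trans
        (show ∑ i ∈ Finset.range L.n, L.w i * (Metric.diam K / 2 + tol K (r + 1)) ≤
          Metric.diam K / 2 + tol K (r + 1) by
          rw [← Finset.sum_mul]; exact mul_le_of_le_one_left (by linarith) L.sum_le))
      have hi' := Finset.mem_range.mp hi
      rw [norm_smul_of_nonneg (L.w_nonneg i)]
      exact mul_le_mul_of_nonneg_left
        ((R.lip _ _ (hBp i hi').1 _ (hEK (L.mem i hi').1)).trans (hBp i hi').2.1) (L.w_nonneg i)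
    have h3 : ‖(1 - S) • (R.G z₀ t - N.c)‖ ≤ tol K r / 8 := by
      rw [norm_smul_of_nonneg (by linarith [L.sum_le])]
      exact le_trans (mul_le_mul_of_nonneg_left (norm_sub_le_diam' hbd hGK hc)
        (by linarith [L.sum_le])) L.gap
    have e : N.path L.a L.w L.n t - N.c = (1 - S) • (R.G z₀ t - N.c) +
        ∑ i ∈ Finset.range L.n, L.w i •
          (R.toFun (L.a i).2 (Bp i) - R.toFun (L.a i).2 (L.a i).1) +
        ∑ i ∈ Finset.range L.n, L.w i • (R.toFun (L.a i).2 (L.a i).1 - N.c) := by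
      simp only [hp, smul_sub, sub_smul, Finset.sum_sub_distrib, ← Finset.sum_smul, one_smul, S]
      abel
    rw [e]
    refine norm_add₃_le.trans ?_
    linarith [L.near]
  · rw [hp, add_sub_cancel_left]
    refine (norm_sum_le _ _).trans ((Finset.sum_le_sum fun i hi => ?_).trans
      (show ∑ i ∈ Finset.range L.n, L.w i * (Metric.diam K / 2 + tol K r) ≤
        Metric.diam K / 2 + tol K r by
        rw [← Finset.sum_mul]; exact mul_le_of_le_one_left (by linarith) L.sum_le))
    have hi' := Finset.mem_range.mp hi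
    rw [norm_smul_of_nonneg (L.w_nonneg i)]
    refine mul_le_mul_of_nonneg_left ?_ (L.w_nonneg i)
    linarith [norm_sub_le_norm_sub_add_norm_sub (R.toFun (L.a i).2 (Bp i))
      (R.toFun (L.a i).2 (R.G z₀ t)) (R.G z₀ t),
      R.lip (L.a i).2 _ (hBp i hi').1 _ hGK, (hBp i hi').2.2, ht i hi]

end Level

end Vale.Agent.P079
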