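import Vale.Agent.P079.Full.Child

/-!
P079: every nonexpansive self map of a nonempty closed bounded convex subset of a reflexive Banach
space has a fixed point.
-/

open scoped BigOperators
open Filter Topology

namespace Vale.Agent.P079

variable {X : Type*} [NormedAddCommGroup X] [NormedSpace ℝ X] {T : X → X} {K : Set X}

theorem exists_root (hcv : Convex ℝ K) (hbd : Bornology.IsBounded K) (hD : 0 < Metric.diam K)
    (hC : HasClusters K) (R : Res T K) {z₀ : X} (hz₀ : z₀ ∈ K) {E : Set X} (hEK : E ⊆ K)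
    (hne : E.Nonempty) : Nonempty (Node R z₀ E 0) := by
  classical
  obtain ⟨c, hc⟩ := hne
  have hGK : ∀ t, R.G z₀ t ∈ K := fun t => R.mem t z₀ hz₀
  obtain ⟨mp, hmpK, hmp⟩ := exists_weakLimit hC hbd (f := fun t => R.mid z₀ c t)
    fun t => (Block.cls_mid hcv hbd hz₀ (hEK hc) (tol_pos hD 0).le t).1
  obtain ⟨mm, hmmK, hmm⟩ := exists_weakLimit hC hbd (f := fun t => R.G z₀ t) hGK
  exact ⟨{
    c := c
    Q := fun _ B => B
    W := 1
    g := fun _ => 0
    F := {mp, mm}
    mp := mp
    mm := mm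
    c_mem := hc
    Q_mem := fun _ B hB => hB
    W_pos := one_pos
    W_le := le_rfl
    lip := fun t B _ B' _ => by simp
    fix := fun ξ hξ => Eventually.of_forall fun s e _ => Eventually.of_forall fun t B _ => by
      simp [hξ.le]
    g_norm := fun _ => by simp
    inv := fun B _ => Eventually.of_forall fun t => by simp [sumFun, slack]
    mp_lim := hmp
    mm_lim := hmm
    F_sub := fun v hv => by
      rcases Finset.mem_insert.mp hv with rfl | hv
      exacts [hmpK, (Finset.mem_singleton.mp hv).symm ▸ hmmK]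
    mp_mem := Finset.mem_insert_self _ _
    mm_mem := Finset.mem_insert_of_mem (Finset.mem_singleton_self _) }⟩

/-- The normalised increment at a node is bounded and large for all functionals of the node. -/
theorem Node.increment (hcv : Convex ℝ K) (hbd : Bornology.IsBounded K) (hD : 0 < Metric.diam K)
    {R : Res T K} {z₀ : X} (hz₀ : z₀ ∈ K) {E : Set X} (hEK : E ⊆ K) {r : ℕ}
    (N : Node R z₀ E r) :
    ‖N.mp - N.mm‖ ≤ N.W * Metric.diam K ∧
      ∀ j < r, N.W * (Metric.diam K / 4) ≤ N.g j (N.mp - N.mm) := by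
  have hc := hEK N.c_mem
  have hGK : ∀ t, R.G z₀ t ∈ K := fun t => R.mem t z₀ hz₀
  have hmid : ∀ t, R.Cls z₀ N.c (tol K r) t (R.mid z₀ N.c t) :=
    Block.cls_mid hcv hbd hz₀ hc (tol_pos hD r).le
  have hbound : ∀ t, ‖N.Q t (R.mid z₀ N.c t) - N.Q t (R.G z₀ t)‖ ≤
      N.W * (Metric.diam K / 2) := fun t => by
    refine (N.lip t _ (hmid t).1 _ (hGK t)).trans (mul_le_mul_of_nonneg_left ?_ N.W_pos.le)
    rw [show R.mid z₀ N.c t - R.G z₀ t = (1 / 2 : ℝ) • (N.c - R.G z₀ t) by rw [Res.mid]; module,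
      norm_smul_of_nonneg (by norm_num)]
    linarith [norm_sub_le_diam' hbd hc (hGK t)]
  refine ⟨(norm_sub_le_of_weakLimit N.mp_lim N.mm_lim (Eventually.of_forall hbound)).trans
    (mul_le_mul_of_nonneg_left (by linarith) N.W_pos.le), fun j hj => ?_⟩
  rw [map_sub]
  refine ge_of_tendsto ((N.mp_lim (N.g j)).sub (N.mm_lim (N.g j))) ?_
  filter_upwards [N.inv _ (Eventually.of_forall hmid)] with t ht
  have hterm : ∀ i ∈ Finset.range r, 0 ≤ N.W * (Metric.diam K / 2) -
      (N.g i (N.Q t (R.mid z₀ N.c t)) - N.g i (N.Q t (R.G z₀ t))) := fun i _ => by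
    rw [← map_sub]
    linarith [(le_abs_self _).trans ((apply_le_norm (N.g_norm i)
      (N.Q t (R.mid z₀ N.c t) - N.Q t (R.G z₀ t))).trans (hbound t))]
  have h1 := Finset.single_le_sum hterm (Finset.mem_range.mpr hj)
  simp only [Finset.sum_sub_distrib, Finset.sum_const, Finset.card_range, nsmul_eq_mul] at h1
  simp only [sumFun, ContinuousLinearMap.sum_apply] at ht
  have h2 := mul_le_mul_of_nonneg_left (slack_le K r) N.W_pos.le
  have h3 := mul_nonneg N.W_pos.le hD.le
  linarith

/-- The fixed point property for sets with weak cluster points in spaces whose balls have them. -/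
theorem exists_fixed_of_clusters [CompleteSpace X]
    (hball : ∀ ρ : ℝ, HasClusters (Metric.closedBall (0 : X) ρ)) {C : Set X}
    (hC : HasClusters C) (hne : C.Nonempty) (hcl : IsClosed C) (hbd : Bornology.IsBounded C)
    (hcv : Convex ℝ C) {T : X → X} (hT : Set.MapsTo T C C)
    (hlip : ∀ a ∈ C, ∀ b ∈ C, ‖T a - T b‖ ≤ ‖a - b‖) : ∃ x ∈ C, T x = x := by
  obtain ⟨K, hKC, hK⟩ := exists_minimal hC.hasInter hne hcl hbd hcv hT hlip
  rcases (Metric.diam_nonneg (s := K)).eq_or_lt with hD | hD
  · obtain ⟨x, hx⟩ := hK.nonempty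
    exact ⟨x, hKC hx, sub_eq_zero.mp (norm_le_zero_iff.mp
      ((hK.norm_sub_le_diam (hK.maps hx) hx).trans_eq hD.symm))⟩
  exfalso
  have hCK := hC.subset hKC hK.closed hK.convex
  obtain ⟨R⟩ := hK.nonempty_res
  obtain ⟨z₀, hz₀⟩ := hK.nonempty
  obtain ⟨E, hEK, hEne, hblocks⟩ := exists_blocks hK hCK R
  have hfar : ∀ u ∈ K, ∀ η > 0, ∀ᶠ s in (toZero : Filter ℝ), ∀ e ∈ K,
      Metric.diam K - η ≤ ‖R.toFun s e - u‖ := fun u hu η hη => by
    obtain ⟨δ, hδ, h⟩ := hK.exists_far hCK.hasInter hu hη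
    filter_upwards [toZero_mem_Ioc, toZero_mul_le (Metric.diam K) hδ] with s hs h1
    exact fun e he => h _ ⟨R.mem s e he, (R.resid s hs e he).trans h1⟩
  obtain ⟨N₀⟩ := exists_root hK.convex hK.bounded hD hCK R hz₀ hEK hEne
  choose next hg hF hW hconst using fun r (N : Node R z₀ E r) =>
    N.exists_child hK.convex hK.bounded hD hCK hz₀ hEK hblocks hfar
  let nodes : (r : ℕ) → Node R z₀ E r := fun r => Nat.rec N₀ (fun r N => next r N) r
  have hsucc : ∀ r, nodes (r + 1) = next r (nodes r) := fun r => rfl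
  set gg : ℕ → X →L[ℝ] ℝ := fun j => (nodes (j + 1)).g j
  have hstable : ∀ r, ∀ j < r, (nodes r).g j = gg j := by
    intro r
    induction r with
    | zero => intro j hj; omega
    | succ r ih =>
      intro j hj
      rcases Nat.lt_succ_iff_lt_or_eq.mp hj with h | h
      · rw [hsucc, hg r _ j h, ih j h]
      · subst h; rfl
  have hFmono : ∀ {r j}, r ≤ j → (nodes r).F ⊆ (nodes j).F := by
    intro r j h
    induction h with
    | refl => exact Finset.Subset.refl _
    | step h ih => exact ih.trans (hF _ _)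
  have hWmono : ∀ {r j}, r ≤ j → (nodes j).W ≤ (nodes r).W := by
    intro r j h
    induction h with
    | refl => exact le_rfl
    | step h ih => exact (hW _ _).trans ih
  set d : ℕ → X := fun r => (nodes r).W⁻¹ • ((nodes r).mp - (nodes r).mm)
  have hdn : ∀ r, ‖d r‖ ≤ Metric.diam K := fun r => by
    rw [norm_smul_of_nonneg (inv_nonneg.mpr (nodes r).W_pos.le),
      inv_mul_le_iff₀ (nodes r).W_pos]
    exact ((nodes r).increment hK.convex hK.bounded hD hz₀ hEK).1
  have hbig : ∀ r, ∀ j < r, Metric.diam K / 4 ≤ gg j (d r) := fun r j hj => by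
    rw [map_smul, smul_eq_mul, le_inv_mul_iff₀ (nodes r).W_pos, ← hstable r j hj]
    exact ((nodes r).increment hK.convex hK.bounded hD hz₀ hEK).2 j hj
  have hzero : ∀ r j, r ≤ j → |gg j (d r)| ≤ tol K j := fun r j hj => by
    rw [map_smul, smul_eq_mul, abs_mul, abs_of_pos (inv_pos.mpr (nodes r).W_pos),
      inv_mul_le_iff₀ (nodes r).W_pos]
    exact (hconst j (nodes j) _ (hFmono hj (nodes r).mp_mem) _
      (hFmono hj (nodes r).mm_mem)).trans
        (mul_le_mul_of_nonneg_right (hWmono hj) (tol_pos hD j).le)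
  set S : Set X := Set.range d
  obtain ⟨x, -, hx⟩ := hball (Metric.diam K) ((atTop : Filter ℕ).map d) map_neBot
    (mem_map.mpr (univ_mem' fun r => mem_closedBall_zero_iff.mpr (hdn r)))
  have hxS : x ∈ closure (convexHull ℝ S) :=
    mem_of_frequently (convex_convexHull ℝ S).closure isClosed_closure
      (mem_map.mpr (univ_mem' fun r : ℕ =>
        subset_closure (subset_convexHull ℝ S (Set.mem_range_self r)))) hx
  obtain ⟨b, hb, hbd'⟩ := Metric.mem_closure_iff.mp hxS (Metric.diam K / 16) (by linarith)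
  obtain ⟨ι, _, w, p, hw, hw1, hp, hpb⟩ := mem_convexHull_iff_exists_fintype.mp hb
  choose k hk using hp
  set j := Finset.univ.sup k
  obtain ⟨r, h1, h2⟩ := ((frequently_map.mp (hx {gg j} (Metric.diam K / 16)
    (by linarith))).and_eventually (eventually_gt_atTop j)).exists
  have hbj : gg j b ≤ tol K j :=
    calc gg j b = ∑ i, w i * gg j (d (k i)) := by
          rw [← hpb, map_sum]
          exact Finset.sum_congr rfl fun i _ => by rw [map_smul, smul_eq_mul, hk i]
      _ ≤ ∑ i, w i * tol K j := Finset.sum_le_sum fun i _ => mul_le_mul_of_nonneg_left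
          ((le_abs_self _).trans (hzero _ j (Finset.le_sup (Finset.mem_univ i)))) (hw i)
      _ = tol K j := by rw [← Finset.sum_mul, hw1, one_mul]
  have hn : ‖gg j‖ ≤ 1 := (nodes (j + 1)).g_norm j
  have h3 : gg j x - gg j b ≤ Metric.diam K / 16 := by
    rw [← map_sub]
    rw [dist_eq_norm] at hbd'
    exact (le_abs_self _).trans ((apply_le_norm hn (x - b)).trans hbd'.le)
  linarith [hbig r j h2, (abs_lt.mp (h1 (gg j) (Finset.mem_singleton_self _))).2, tol_le K j]

/-- Every reflexive Banach space has the fixed point property. -/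
theorem exists_fixed_of_reflexive [CompleteSpace X]
    (hX : Function.Surjective (NormedSpace.inclusionInDoubleDual ℝ X)) {C : Set X}
    (hne : C.Nonempty) (hcl : IsClosed C) (hbd : Bornology.IsBounded C) (hcv : Convex ℝ C)
    {T : X → X} (hT : Set.MapsTo T C C)
    (hlip : ∀ a ∈ C, ∀ b ∈ C, ‖T a - T b‖ ≤ ‖a - b‖) : ∃ x ∈ C, T x = x :=
  exists_fixed_of_clusters
    (fun ρ => hasClusters_of_reflexive hX Metric.isClosed_closedBall Metric.isBounded_closedBall
      (convex_closedBall 0 ρ))
    (hasClusters_of_reflexive hX hcl hbd hcv) hne hcl hbd hcv hT hlip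

end Vale.Agent.P079
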