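import Vale.Agent.P079.Full.Adaptive

/-!
P079: one more level. A node carries functionals that are simultaneously large on every admissible
increment at that node; a block of finer resolvents yields a child carrying one functional more.
-/

open scoped BigOperators
open Filter Topology

namespace Vale.Agent.P079

variable {X : Type*} [NormedAddCommGroup X] [NormedSpace ℝ X] {T : X → X} {K : Set X}

/-- The fine resolvent point over `z₀`. -/
def Res.G (R : Res T K) (z₀ : X) (t : ℝ) : X := R.toFun t z₀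

/-- The midpoint between `c` and the fine resolvent point. -/
noncomputable def Res.mid (R : Res T K) (z₀ c : X) (t : ℝ) : X :=
  (1 / 2 : ℝ) • c + (1 / 2 : ℝ) • R.G z₀ t

/-- Points within `D / 2 + ρ` of both `c` and the fine resolvent point. -/
def Res.Cls (R : Res T K) (z₀ c : X) (ρ t : ℝ) (B : X) : Prop :=
  B ∈ K ∧ ‖B - c‖ ≤ Metric.diam K / 2 + ρ ∧ ‖B - R.G z₀ t‖ ≤ Metric.diam K / 2 + ρ

/-- The tolerance at level `r`. -/
noncomputable def tol (K : Set X) (r : ℕ) : ℝ := Metric.diam K / 128 * (1 / 2) ^ r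

/-- The loss accumulated up to level `r`. -/
noncomputable def slack (K : Set X) (r : ℕ) : ℝ := 24 * Metric.diam K / 128 * (1 - (1 / 2) ^ r)

/-- The sum of the first `r` functionals. -/
noncomputable def sumFun (g : ℕ → X →L[ℝ] ℝ) (r : ℕ) : X →L[ℝ] ℝ := ∑ j ∈ Finset.range r, g j

/-- A node of level `r`. -/
structure Node (R : Res T K) (z₀ : X) (E : Set X) (r : ℕ) where
  c : X
  Q : ℝ → X → X
  W : ℝ
  g : ℕ → X →L[ℝ] ℝ
  F : Finset X
  mp : X
  mm : X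
  c_mem : c ∈ E
  Q_mem : ∀ t, ∀ B ∈ K, Q t B ∈ K
  W_pos : 0 < W
  W_le : W ≤ 1
  lip : ∀ t, ∀ B ∈ K, ∀ B' ∈ K, ‖Q t B - Q t B'‖ ≤ W * ‖B - B'‖
  fix : ∀ ξ > 0, ∀ᶠ s in (toZero : Filter ℝ), ∀ e ∈ K, ∀ᶠ t in (toZero : Filter ℝ), ∀ B ∈ K,
    ‖Q t B - R.toFun s e‖ ≤ (1 - W) * Metric.diam K + W * ‖B - R.toFun s e‖ + ξ
  g_norm : ∀ j, ‖g j‖ ≤ 1
  inv : ∀ B : ℝ → X, (∀ᶠ t in (toZero : Filter ℝ), R.Cls z₀ c (tol K r) t (B t)) →
    ∀ᶠ t in (toZero : Filter ℝ), W * (r * (Metric.diam K / 2) - slack K r) ≤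
      sumFun g r (Q t (B t)) - sumFun g r (Q t (R.G z₀ t))
  mp_lim : ∀ Φ : X →L[ℝ] ℝ, Tendsto (fun t => Φ (Q t (R.mid z₀ c t))) toZero (𝓝 (Φ mp))
  mm_lim : ∀ Φ : X →L[ℝ] ℝ, Tendsto (fun t => Φ (Q t (R.G z₀ t))) toZero (𝓝 (Φ mm))
  F_sub : ∀ v ∈ F, v ∈ K
  mp_mem : mp ∈ F
  mm_mem : mm ∈ F

theorem apply_le_norm {Φ : X →L[ℝ] ℝ} (hn : ‖Φ‖ ≤ 1) (x : X) : |Φ x| ≤ ‖x‖ :=
  (Φ.le_opNorm x).trans (mul_le_of_le_one_left (norm_nonneg x) hn)

theorem sum_half_pow_le (n : ℕ) : ∑ i ∈ Finset.range n, (1 / 2 : ℝ) ^ (i + 1) ≤ 1 := by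
  simp only [pow_succ, ← Finset.sum_mul]
  linarith [sum_geometric_two_le n]

/-- A functional of norm one constant on a finite set, up to the error in the distance to its
average. -/
theorem exists_functional (hcv : Convex ℝ K) (hbd : Bornology.IsBounded K) {F : Finset X}
    (hF : F.Nonempty) (hFK : ∀ v ∈ F, v ∈ K) :
    ∃ u ∈ K, ∀ x ∈ K, ∀ η : ℝ, Metric.diam K - η ≤ ‖x - u‖ →
      ∃ g : X →L[ℝ] ℝ, ‖g‖ ≤ 1 ∧ ∀ v ∈ F, Metric.diam K - F.card * η ≤ g (x - v) := by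
  set c : ℝ := (F.card : ℝ)⁻¹
  have hcard : (0 : ℝ) < F.card := by exact_mod_cast hF.card_pos
  refine ⟨∑ v ∈ F, c • v, hcv.sum_mem (fun v _ => by positivity) ?_ hFK, fun x hx η hη => ?_⟩
  · rw [Finset.sum_const, nsmul_eq_mul]; exact mul_inv_cancel₀ hcard.ne'
  obtain ⟨g, hg, hval⟩ := exists_dual_vector'' ℝ (x - ∑ v ∈ F, c • v)
  rw [RCLike.ofReal_real_eq_id, id] at hval
  refine ⟨g, hg, fun v hv => ?_⟩
  have hterm : ∀ w ∈ F, 0 ≤ Metric.diam K - g (x - w) := fun w hw => by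
    have := (le_abs_self _).trans (apply_le_norm hg (x - w))
    have h2 : ‖x - w‖ ≤ Metric.diam K := by
      rw [← dist_eq_norm]; exact Metric.dist_le_diam_of_mem hbd hx (hFK w hw)
    linarith
  have e : g (x - ∑ v ∈ F, c • v) = c * ∑ w ∈ F, g (x - w) := by
    simp only [map_sub, map_sum, map_smul, smul_eq_mul, Finset.sum_sub_distrib, Finset.sum_const,
      nsmul_eq_mul, mul_sub, ← Finset.mul_sum, c, inv_mul_cancel_left₀ hcard.ne']
  have h1 : F.card * (Metric.diam K - η) ≤ ∑ w ∈ F, g (x - w) := by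
    rw [← hval, e] at hη
    have := mul_le_mul_of_nonneg_left hη hcard.le
    rwa [← mul_assoc, mul_inv_cancel₀ hcard.ne', one_mul] at this
  have h2 := Finset.single_le_sum hterm hv
  simp only [Finset.sum_sub_distrib, Finset.sum_const, nsmul_eq_mul] at h2
  linarith

namespace Block

variable (R : Res T K) (z₀ : X) (Q : ℝ → X → X) (Φ : X →L[ℝ] ℝ) (err : ℕ → ℝ) (ρ : ℝ)

/-- `B` nearly minimises `Φ` among the admissible points, after the step `(e, s)` of weight `μ`. -/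
def NearMin (i : ℕ) (p : X) (μ : ℝ) (es : X × ℝ) (t : ℝ) (B : X) : Prop :=
  R.Cls z₀ es.1 ρ t B ∧ ∀ B', R.Cls z₀ es.1 ρ t B' →
    Φ (Q t (p + μ • (R.toFun es.2 B - R.G z₀ t))) ≤
      Φ (Q t (p + μ • (R.toFun es.2 B' - R.G z₀ t))) + err i

open scoped Classical in
/-- A near minimiser, or the midpoint if there is none. -/
noncomputable def pick (i : ℕ) (p : X) (μ : ℝ) (es : X × ℝ) (t : ℝ) : X :=
  if h : ∃ B, NearMin R z₀ Q Φ err ρ i p μ es t B then h.choose else R.mid z₀ es.1 t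

/-- The points along a block. -/
noncomputable def pre (a : ℕ → X × ℝ) (w : ℕ → ℝ) : ℕ → ℝ → X
  | 0, t => R.G z₀ t
  | n + 1, t => pre a w n t + w n •
      (R.toFun (a n).2 (pick R z₀ Q Φ err ρ n (pre a w n t) (w n) (a n) t) - R.G z₀ t)

theorem pre_congr {a b : ℕ → X × ℝ} {v w : ℕ → ℝ} {n : ℕ} (ha : ∀ i < n, a i = b i)
    (hw : ∀ i < n, v i = w i) : pre R z₀ Q Φ err ρ a v n = pre R z₀ Q Φ err ρ b w n := by
  induction n with
  | zero => rfl
  | succ n ih =>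
    funext t
    simp only [pre, ih (fun i hi => ha i (by omega)) (fun i hi => hw i (by omega)),
      ha n (by omega), hw n (by omega)]

variable {R z₀ Q Φ err ρ}

theorem pre_eq_sum (a : ℕ → X × ℝ) (w : ℕ → ℝ) (n : ℕ) (t : ℝ) :
    pre R z₀ Q Φ err ρ a w n t = R.G z₀ t + ∑ i ∈ Finset.range n, w i •
      (R.toFun (a i).2 (pick R z₀ Q Φ err ρ i (pre R z₀ Q Φ err ρ a w i t) (w i) (a i) t) -
        R.G z₀ t) := by
  induction n with
  | zero => simp [pre]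
  | succ n ih => rw [Finset.sum_range_succ, ← add_assoc, ← ih]; rfl

theorem cls_mid (hcv : Convex ℝ K) (hbd : Bornology.IsBounded K) (hz₀ : z₀ ∈ K) {e : X}
    (he : e ∈ K) {ρ : ℝ} (hρ : 0 ≤ ρ) (t : ℝ) : R.Cls z₀ e ρ t (R.mid z₀ e t) := by
  have hG := R.mem t z₀ hz₀
  have hd : ‖e - R.G z₀ t‖ ≤ Metric.diam K := by
    rw [← dist_eq_norm]; exact Metric.dist_le_diam_of_mem hbd he hG
  refine ⟨hcv he hG (by norm_num) (by norm_num) (by norm_num), ?_, ?_⟩
  · rw [show R.mid z₀ e t - e = (1 / 2 : ℝ) • (R.G z₀ t - e) by rw [Res.mid]; module,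
      norm_smul_of_nonneg (by norm_num), norm_sub_rev]
    linarith
  · rw [show R.mid z₀ e t - R.G z₀ t = (1 / 2 : ℝ) • (e - R.G z₀ t) by rw [Res.mid]; module,
      norm_smul_of_nonneg (by norm_num)]
    linarith

theorem pick_cls (hcv : Convex ℝ K) (hbd : Bornology.IsBounded K) (hz₀ : z₀ ∈ K) (hρ : 0 ≤ ρ)
    (i : ℕ) (p : X) (μ : ℝ) {es : X × ℝ} (he : es.1 ∈ K) (t : ℝ) :
    R.Cls z₀ es.1 ρ t (pick R z₀ Q Φ err ρ i p μ es t) := by
  unfold pick
  split_ifs with h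
  exacts [h.choose_spec.1, cls_mid hcv hbd hz₀ he hρ t]

theorem pick_min (hcv : Convex ℝ K) (hbd : Bornology.IsBounded K) (hz₀ : z₀ ∈ K) (hρ : 0 ≤ ρ)
    (hQ : ∀ t, ∀ B ∈ K, Q t B ∈ K) {i : ℕ} (herr : 0 < err i) {p : X} {μ t : ℝ}
    (hp : ∀ Z ∈ K, p + μ • (Z - R.G z₀ t) ∈ K) {es : X × ℝ} (he : es.1 ∈ K) {B : X}
    (hB : R.Cls z₀ es.1 ρ t B) :
    Φ (Q t (p + μ • (R.toFun es.2 (pick R z₀ Q Φ err ρ i p μ es t) - R.G z₀ t))) ≤
      Φ (Q t (p + μ • (R.toFun es.2 B - R.G z₀ t))) + err i := by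
  have h : ∃ B, NearMin R z₀ Q Φ err ρ i p μ es t B := by
    set S := (fun B => Φ (Q t (p + μ • (R.toFun es.2 B - R.G z₀ t)))) '' {B | R.Cls z₀ es.1 ρ t B}
    obtain ⟨Rb, hRb⟩ := hbd.exists_norm_le
    have hb : BddBelow S := ⟨-(‖Φ‖ * Rb), by
      rintro _ ⟨B', hB', rfl⟩
      exact neg_le_of_abs_le ((Φ.le_opNorm _).trans (mul_le_mul_of_nonneg_left
        (hRb _ (hQ t _ (hp _ (R.mem _ _ hB'.1)))) (norm_nonneg _)))⟩
    have hSne : S.Nonempty := ⟨_, R.mid z₀ es.1 t, cls_mid hcv hbd hz₀ he hρ t, rfl⟩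
    obtain ⟨_, ⟨B₀, hB₀, rfl⟩, hlt⟩ := exists_lt_of_csInf_lt hSne
      (show sInf S < sInf S + err i by linarith)
    exact ⟨B₀, hB₀, fun B' hB' => by linarith [csInf_le hb ⟨B', hB', rfl⟩]⟩
  unfold pick
  rw [dif_pos h]
  exact h.choose_spec.2 B hB

/-- Every point along a block can be continued towards any point of `K`. -/
theorem pre_extend (hcv : Convex ℝ K) (hbd : Bornology.IsBounded K) (hz₀ : z₀ ∈ K) (hρ : 0 ≤ ρ)
    {a : ℕ → X × ℝ} {w : ℕ → ℝ} (n : ℕ) (ha : ∀ i < n, (a i).1 ∈ K)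
    (hw : ∀ i < n, 0 ≤ w i) (t : ℝ) : ∀ Z ∈ K, ∀ τ : ℝ, 0 ≤ τ →
      (∑ i ∈ Finset.range n, w i) + τ ≤ 1 →
      pre R z₀ Q Φ err ρ a w n t + τ • (Z - R.G z₀ t) ∈ K ∧
      ‖pre R z₀ Q Φ err ρ a w n t + τ • (Z - R.G z₀ t) - Z‖ ≤ (1 - τ) * Metric.diam K := by
  have hdiam : ∀ p ∈ K, ∀ q ∈ K, ‖p - q‖ ≤ Metric.diam K := fun p hp q hq => by
    rw [← dist_eq_norm]; exact Metric.dist_le_diam_of_mem hbd hp hq
  induction n with
  | zero =>
    intro Z hZ τ hτ hτ1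
    simp only [Finset.range_zero, Finset.sum_empty, zero_add] at hτ1
    have hG := R.mem t z₀ hz₀
    refine ⟨?_, ?_⟩
    · rw [show pre R z₀ Q Φ err ρ a w 0 t + τ • (Z - R.G z₀ t) =
        (1 - τ) • R.G z₀ t + τ • Z by rw [pre]; module]
      exact hcv hG hZ (by linarith) hτ (by ring)
    · rw [show pre R z₀ Q Φ err ρ a w 0 t + τ • (Z - R.G z₀ t) - Z =
        (1 - τ) • (R.G z₀ t - Z) by rw [pre]; module, norm_smul_of_nonneg (by linarith)]
      exact mul_le_mul_of_nonneg_left (hdiam _ hG _ hZ) (by linarith)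
  | succ n ih =>
    intro Z hZ τ hτ hτ1
    rw [Finset.sum_range_succ] at hτ1
    set P := pre R z₀ Q Φ err ρ a w n t
    set Y := R.toFun (a n).2 (pick R z₀ Q Φ err ρ n P (w n) (a n) t)
    have hY : Y ∈ K := R.mem _ _ (pick_cls hcv hbd hz₀ hρ n P (w n) (ha n (by omega)) t).1
    have hwn : 0 ≤ w n := hw n (by omega)
    have ih' := ih (fun i hi => ha i (by omega)) (fun i hi => hw i (by omega))
    obtain ⟨hZ1, hZ2⟩ := ih' Z hZ (w n + τ) (by linarith) (by linarith)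
    obtain ⟨hY1, -⟩ := ih' Y hY (w n + τ) (by linarith) (by linarith)
    have e : pre R z₀ Q Φ err ρ a w (n + 1) t + τ • (Z - R.G z₀ t) =
        P + w n • (Y - R.G z₀ t) + τ • (Z - R.G z₀ t) := rfl
    refine ⟨?_, ?_⟩
    · rcases (add_nonneg hwn hτ).eq_or_lt with h0 | h0
      · have h1 : w n = 0 := by linarith
        have h2 : τ = 0 := by linarith
        rw [e, h1, h2]
        simpa [h1, h2] using hZ1
      · rw [e, show P + w n • (Y - R.G z₀ t) + τ • (Z - R.G z₀ t) =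
          (w n / (w n + τ)) • (P + (w n + τ) • (Y - R.G z₀ t)) +
          (τ / (w n + τ)) • (P + (w n + τ) • (Z - R.G z₀ t)) by
            match_scalars <;> field_simp <;> ring]
        exact hcv hY1 hZ1 (by positivity) (by positivity) (by field_simp)
    · rw [e, show P + w n • (Y - R.G z₀ t) + τ • (Z - R.G z₀ t) - Z =
        (P + (w n + τ) • (Z - R.G z₀ t) - Z) + w n • (Y - Z) by module]
      refine (norm_add_le _ _).trans ?_
      rw [norm_smul_of_nonneg hwn]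
      calc _ ≤ (1 - (w n + τ)) * Metric.diam K + w n * Metric.diam K :=
            add_le_add hZ2 (mul_le_mul_of_nonneg_left (hdiam _ hY _ hZ) hwn)
        _ = (1 - τ) * Metric.diam K := by ring

/-- The admissible weight vectors of length `n`. -/
noncomputable def weights (h : ℕ → ℝ) : ℕ → Finset (ℕ → ℝ)
  | 0 => {fun _ => 0}
  | n + 1 => open scoped Classical in
    (weights h n).biUnion fun w =>
      (Finset.range (⌊1 / h n⌋₊ + 1)).image fun k : ℕ => Function.update w n (k * h n)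

theorem mem_weights {h : ℕ → ℝ} {w : ℕ → ℝ} {k : ℕ → ℕ} (n : ℕ)
    (hk : ∀ i < n, k i ≤ ⌊1 / h i⌋₊ ∧ w i = k i * h i) :
    (fun i => if i < n then w i else 0) ∈ weights h n := by
  induction n with
  | zero => simp [weights]
  | succ n ih =>
    simp only [weights, Finset.mem_biUnion, Finset.mem_image, Finset.mem_range]
    refine ⟨_, ih fun i hi => hk i (by omega), k n, by linarith [(hk n (by omega)).1], ?_⟩
    funext i
    rcases eq_or_ne i n with rfl | hi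
    · simp [(hk i (by omega)).2]
    · rw [Function.update_of_ne hi]
      by_cases h1 : i < n
      · simp [h1, show i < n + 1 by omega]
      · simp [h1, show ¬ i < n + 1 by omega]

end Block

end Vale.Agent.P079
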