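import Vale.Agent.P079.Minimal

/-!
P079: resolvents of a nonexpansive map on a minimal set and their weak limits at parameter zero.
-/

open Filter Topology

namespace Vale.Agent.P079

variable {X : Type*} [NormedAddCommGroup X] [NormedSpace ℝ X]

/-- A fixed ultrafilter converging to zero from the right. -/
noncomputable def toZero : Ultrafilter ℝ :=
  @Ultrafilter.of ℝ (𝓝[>] (0 : ℝ)) (nhdsGT_neBot 0)

theorem toZero_le : (toZero : Filter ℝ) ≤ 𝓝[>] (0 : ℝ) :=
  @Ultrafilter.of_le ℝ (𝓝[>] (0 : ℝ)) (nhdsGT_neBot 0)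

theorem toZero_pos : ∀ᶠ t : ℝ in (toZero : Filter ℝ), 0 < t :=
  eventually_nhdsWithin_of_forall (fun _ h => h) |>.filter_mono toZero_le

theorem toZero_tendsto : Tendsto (fun t : ℝ => t) toZero (𝓝 0) :=
  (tendsto_nhdsWithin_iff.mp (show Tendsto (fun t : ℝ => t) toZero (𝓝[>] 0) from toZero_le)).1

theorem toZero_mul_le (a : ℝ) {b : ℝ} (hb : 0 < b) : ∀ᶠ t in (toZero : Filter ℝ), t * a ≤ b :=
  ((toZero_tendsto.mul_const a).eventually_lt_const (by simpa using hb)).mono fun _ h => h.le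

theorem toZero_mem_Ioc : ∀ᶠ t in (toZero : Filter ℝ), t ∈ Set.Ioc (0 : ℝ) 1 :=
  toZero_pos.and ((toZero_tendsto.eventually_lt_const one_pos).mono fun _ h => h.le)

/-- The resolvents of `T` on `K`, extended by the identity outside `(0, 1]`. -/
structure Res (T : X → X) (K : Set X) where
  toFun : ℝ → X → X
  mem : ∀ t, ∀ u ∈ K, toFun t u ∈ K
  lip : ∀ t, ∀ u ∈ K, ∀ v ∈ K, ‖toFun t u - toFun t v‖ ≤ ‖u - v‖
  resid : ∀ t ∈ Set.Ioc (0 : ℝ) 1, ∀ u ∈ K,
    ‖T (toFun t u) - toFun t u‖ ≤ t * Metric.diam K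
  close : ∀ t ∈ Set.Ioc (0 : ℝ) 1, ∀ y ∈ K, ‖toFun t y - y‖ ≤ ‖T y - y‖ / t

theorem Minimal.nonempty_res [CompleteSpace X] {T : X → X} {K : Set X} (hK : Minimal T K) :
    Nonempty (Res T K) := by
  have hex : ∀ t ∈ Set.Ioc (0 : ℝ) 1, ∀ u ∈ K, ∃ w ∈ K, t • u + (1 - t) • T w = w := by
    intro t ht u hu
    set g : X → X := fun w => t • u + (1 - t) • T w
    have hg : Set.MapsTo g K K := fun w hw =>
      hK.convex hu (hK.maps hw) ht.1.le (by linarith [ht.2]) (by ring)
    have hcon : ContractingWith (1 - t).toNNReal hg.restrict := by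
      refine ⟨by
        rw [← NNReal.coe_lt_coe, Real.coe_toNNReal _ (by linarith [ht.2]), NNReal.coe_one]
        linarith [ht.1], LipschitzWith.of_dist_le_mul fun a b => ?_⟩
      rw [Subtype.dist_eq, Subtype.dist_eq, dist_eq_norm, dist_eq_norm,
        Real.coe_toNNReal _ (by linarith [ht.2])]
      simp only [Set.MapsTo.val_restrict_apply, g, add_sub_add_left_eq_sub, ← smul_sub,
        norm_smul_of_nonneg (show 0 ≤ 1 - t by linarith [ht.2])]
      exact mul_le_mul_of_nonneg_left (hK.lip _ a.2 _ b.2) (by linarith [ht.2])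
    obtain ⟨w, hwK, hw, -, -⟩ :=
      hcon.exists_fixedPoint' hK.closed.isComplete hg hu (edist_ne_top _ _)
    exact ⟨w, hwK, hw⟩
  choose! f hfK hf using hex
  classical
  refine ⟨⟨fun t u => if t ∈ Set.Ioc (0 : ℝ) 1 then f t u else u, fun t u hu => ?_,
    fun t u hu v hv => ?_, fun t ht u hu => ?_, fun t ht y hy => ?_⟩⟩
  · split_ifs with h
    exacts [hfK t h u hu, hu]
  · split_ifs with h
    · have e : f t u - f t v = t • (u - v) + (1 - t) • (T (f t u) - T (f t v)) := by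
        nth_rw 1 [← hf t h u hu, ← hf t h v hv]; module
      have h1 := norm_add_le (t • (u - v)) ((1 - t) • (T (f t u) - T (f t v)))
      rw [← e, norm_smul_of_nonneg h.1.le,
        norm_smul_of_nonneg (show 0 ≤ 1 - t by linarith [h.2])] at h1
      nlinarith [mul_le_mul_of_nonneg_left (hK.lip _ (hfK t h u hu) _ (hfK t h v hv))
        (show 0 ≤ 1 - t by linarith [h.2]), h.1]
    · exact le_rfl
  · simp only [if_pos ht]
    have e : T (f t u) - f t u = t • (T (f t u) - u) := by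
      nth_rw 2 [← hf t ht u hu]; module
    rw [e, norm_smul_of_nonneg ht.1.le]
    exact mul_le_mul_of_nonneg_left (hK.norm_sub_le_diam (hK.maps (hfK t ht u hu)) hu) ht.1.le
  · simp only [if_pos ht]
    have e : f t y - y = (1 - t) • ((T (f t y) - T y) + (T y - y)) := by
      nth_rw 1 [← hf t ht y hy]; module
    have h0 : 0 ≤ 1 - t := by linarith [ht.2]
    have h1 : ‖f t y - y‖ ≤ (1 - t) * (‖f t y - y‖ + ‖T y - y‖) := by
      calc ‖f t y - y‖ = ‖(1 - t) • ((T (f t y) - T y) + (T y - y))‖ := by rw [← e]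
        _ ≤ _ := by
          rw [norm_smul_of_nonneg h0]
          exact mul_le_mul_of_nonneg_left ((norm_add_le _ _).trans
            (by linarith [hK.lip _ (hfK t ht y hy) y hy])) h0
    rw [le_div_iff₀ ht.1]
    nlinarith [norm_nonneg (T y - y), ht.1]

namespace Res

variable {T : X → X} {K : Set X} (R : Res T K)

omit [NormedSpace ℝ X] in
/-- The resolvents fix finer resolvent points up to the ratio of the parameters. -/
theorem fix {t s : ℝ} (ht : t ∈ Set.Ioc (0 : ℝ) 1) (hs : s ∈ Set.Ioc (0 : ℝ) 1) {u : X}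
    (hu : u ∈ K) : ‖R.toFun t (R.toFun s u) - R.toFun s u‖ ≤ s * (Metric.diam K / t) := by
  rw [← mul_div_assoc]
  exact (R.close t ht _ (R.mem s u hu)).trans
    (div_le_div_of_nonneg_right (R.resid s hs u hu) ht.1.le)

end Res

/-- Weak limits along `toZero` of families in a set with weak cluster points. -/
theorem exists_weakLimit {C : Set X} (hC : HasClusters C) (hbd : Bornology.IsBounded C)
    {f : ℝ → X} (hf : ∀ t, f t ∈ C) :
    ∃ m ∈ C, ∀ Φ : X →L[ℝ] ℝ, Tendsto (fun t => Φ (f t)) toZero (𝓝 (Φ m)) := by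
  obtain ⟨R, hR⟩ := hbd.exists_norm_le
  obtain ⟨m, hm, hfreq⟩ := hC ((toZero : Filter ℝ).map f) map_neBot
    (mem_map.mpr (univ_mem' hf))
  refine ⟨m, hm, fun Φ => ?_⟩
  obtain ⟨l, -, hl⟩ := exists_limit hR (toZero.map f)
    (Ultrafilter.mem_map.mpr (univ_mem' hf)) Φ
  rw [Ultrafilter.coe_map, tendsto_map'_iff] at hl
  suffices Φ m = l by rw [this]; exact hl
  refine eq_of_forall_dist_le fun ε hε => ?_
  obtain ⟨t, h1, h2⟩ := ((frequently_map.mp (hfreq {Φ} (ε / 2) (by linarith))).and_eventually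
    (hl (Metric.ball_mem_nhds l (show (0 : ℝ) < ε / 2 by linarith)))).exists
  rw [Metric.mem_ball, Function.comp_apply, Real.dist_eq, abs_lt] at h2
  have := abs_lt.mp (h1 Φ (Finset.mem_singleton_self Φ))
  rw [Real.dist_eq, abs_le]
  constructor <;> linarith

/-- The norm is weakly lower semicontinuous along `toZero`. -/
theorem norm_sub_le_of_weakLimit {f g : ℝ → X} {m n : X} {b : ℝ}
    (hf : ∀ Φ : X →L[ℝ] ℝ, Tendsto (fun t => Φ (f t)) toZero (𝓝 (Φ m)))
    (hg : ∀ Φ : X →L[ℝ] ℝ, Tendsto (fun t => Φ (g t)) toZero (𝓝 (Φ n)))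
    (h : ∀ᶠ t in (toZero : Filter ℝ), ‖f t - g t‖ ≤ b) : ‖m - n‖ ≤ b := by
  obtain ⟨Φ, hn, hval⟩ := exists_dual_vector'' ℝ (m - n)
  rw [RCLike.ofReal_real_eq_id, id] at hval
  rw [← hval, map_sub]
  refine le_of_tendsto ((hf Φ).sub (hg Φ)) (h.mono fun t ht => ?_)
  rw [← map_sub]
  exact (le_abs_self _).trans ((Φ.le_opNorm _).trans
    ((mul_le_of_le_one_left (norm_nonneg _) hn).trans ht))

end Vale.Agent.P079
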